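import Vale.Agent.P287.H621.E3
import Vale.Agent.P287.EvenN.Skel

/-!
The block [DE], literal.
-/

namespace Vale.Agent.P287.H621

open Polynomial Vale.Agent.P287 Vale.Agent.P287.Theta Matrix Module Vale.Agent.P287.H684

theorem stmtDE : EvenN.StmtDE := by
  intro M g r T S u J hM hs hδ hr hg hgi hgf hTS hu K hQ hJ hJ' h1
  have hfi := irreducible_of_smooth hM.det (by norm_num) hs
  have D : E1Data M g r := ⟨hM, hs, hδ, hr, hg, fun h =>
    hgf (hfi.associated_of_dvd hgi h).symm.dvd⟩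
  obtain ⟨b₀, ⟨h2, h3⟩, h4, h5⟩ := h1
  have h6 := D.finrank_Yd4 hTS hu (f' := dh (sb T M.det)) (g' := C (C u) * dh (sb T g)) rfl rfl K
    hQ hJ.mul_mem (fun c hc => (hJ' c).2 hc)
  have h7 := D.finrank_one ⟨b₀, h2, h3, h4, fun b hb hb' => h5 b ⟨hb, hb'⟩⟩
  change finrank ℂ (EvenN.Yd4 (2 * r) (r - 1) (EvenN.modX4 (M.map (ch T)) J)) = _
  rw [h6, h7]
  ring

end Vale.Agent.P287.H621
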