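import Vale.Agent.P287.H621.HSqrt
import Vale.Agent.P287.H908.PhiLemma
import Vale.Agent.P287.H684.Dim

/-!
The space `X_{r-1} = {v : v . adj(M) v ∈ (f, g)}` for the matrix `M` of the quadric surface
fibration, `f = det M`, `g` a form of degree `2 r`.
-/

namespace Vale.Agent.P287.H621

open MvPolynomial Vale.Agent.P287 Vale.Agent.P287.Theta Matrix Module Vale.Agent.P287.H684
open Vale.Agent.P287.H908 (w0)

/-- The hypotheses. -/
structure E1Data (M : Matrix (Fin 4) (Fin 4) R3) (g : R3) (r : ℕ) : Prop where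
  hM : FibShape M
  hs : SmoothTernary M.det
  hδ0 : M.adjugate 0 0 ≠ 0
  hr : 1 ≤ r
  hg : g.IsHomogeneous (2 * r)
  hfg : ¬ M.det ∣ g

lemma degE_eq : ∀ i j : Fin 4, degE i j = 1 + w0 i + w0 j := by decide

lemma w0_le : ∀ i : Fin 4, w0 i ≤ 1 := by decide

namespace E1Data

variable {M : Matrix (Fin 4) (Fin 4) R3} {g : R3} {r : ℕ} (D : E1Data M g r)
include D

lemma hdeg (i j : Fin 4) : (M i j).IsHomogeneous (1 + w0 i + w0 j) := by
  rw [← degE_eq]
  exact D.hM.entry i j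

lemma hf : M.det.IsHomogeneous 6 := D.hM.det

lemma prime : Prime M.det := (irreducible_of_smooth D.hf (by norm_num) D.hs).prime

lemma hδ : (M.adjugate 0 0).IsHomogeneous 3 := D.hM.delta

lemma not_dvd_delta : ¬ M.det ∣ M.adjugate 0 0 := fun h =>
  D.hδ0 (eq_zero_of_dvd D.hf D.hδ (by norm_num) h)

lemma not_dvd_dg : ¬ M.det ∣ M.adjugate 0 0 * g := fun h =>
  (D.prime.dvd_or_dvd h).elim D.not_dvd_delta D.hfg

lemma dvd_of_delta_mul {P : R3} (h : M.det ∣ M.adjugate 0 0 * P) : M.det ∣ P :=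
  (D.prime.dvd_or_dvd h).resolve_left D.not_dvd_delta

lemma hadj (i j : Fin 4) : (M.adjugate i j).IsHomogeneous (5 - w0 i - w0 j) := by
  refine H908.adj_hom₂ M (fun i => 1 + w0 i) w0 D.hdeg i j _ ?_
  have h1 : ∑ i, (1 + w0 i) = 5 := by decide
  have h2 : ∑ i, w0 i = 1 := by decide
  have := w0_le i
  have := w0_le j
  rw [h1, h2]
  omega

lemma adj_symm (i j : Fin 4) : M.adjugate i j = M.adjugate j i := by
  have h1 := Matrix.adjugate_transpose M
  rw [D.hM.symm.eq] at h1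
  exact (congrFun (congrFun h1 j) i)

lemma minor (i j : Fin 4) :
    M.det ∣ M.adjugate 0 0 * M.adjugate i j - M.adjugate i 0 * M.adjugate 0 j :=
  dvd_minor_adjugate M D.prime dvd_rfl D.not_dvd_delta i j

/-- `δ (adj v)_i = adj_{i0} (adj v)_0` modulo `f` -/
lemma delta_mul (v : Fin 4 → R3) (i : Fin 4) : M.det ∣
    M.adjugate 0 0 * (M.adjugate *ᵥ v) i - M.adjugate i 0 * (M.adjugate *ᵥ v) 0 := by
  have h : M.adjugate 0 0 * (M.adjugate *ᵥ v) i - M.adjugate i 0 * (M.adjugate *ᵥ v) 0 =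
      ∑ j, (M.adjugate 0 0 * M.adjugate i j - M.adjugate i 0 * M.adjugate 0 j) * v j := by
    simp only [mulVec, dotProduct, Fin.sum_univ_four]
    ring
  rw [h]
  exact Finset.dvd_sum fun j _ => (D.minor i j).mul_right _

/-- `δ (v . adj v) = ((adj v)_0)²` modulo `f` -/
lemma delta_sq (v : Fin 4 → R3) : M.det ∣
    M.adjugate 0 0 * (v ⬝ᵥ M.adjugate *ᵥ v) - (M.adjugate *ᵥ v) 0 ^ 2 := by
  have h : M.adjugate 0 0 * (v ⬝ᵥ M.adjugate *ᵥ v) - (M.adjugate *ᵥ v) 0 ^ 2 =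
      ∑ i, v i * (M.adjugate 0 0 * (M.adjugate *ᵥ v) i -
        M.adjugate i 0 * (M.adjugate *ᵥ v) 0) := by
    have h1 : (M.adjugate *ᵥ v) 0 = ∑ i, M.adjugate i 0 * v i := by
      rw [mulVec, dotProduct]
      exact Finset.sum_congr rfl fun i _ => by rw [D.adj_symm 0 i]
    have h2 : ∑ i, v i * (M.adjugate 0 0 * (M.adjugate *ᵥ v) i -
        M.adjugate i 0 * (M.adjugate *ᵥ v) 0) = M.adjugate 0 0 * ∑ i, v i * (M.adjugate *ᵥ v) i -
        (∑ i, M.adjugate i 0 * v i) * (M.adjugate *ᵥ v) 0 := by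
      rw [Finset.mul_sum, Finset.sum_mul, ← Finset.sum_sub_distrib]
      exact Finset.sum_congr rfl fun i _ => by ring
    rw [h2, ← h1, dotProduct]
    ring
  rw [h]
  exact Finset.dvd_sum fun i _ => (D.delta_mul v i).mul_left _

/-- `(adj v)_i (adj v)_k = adj_{ik} (v . adj v)` modulo `f` -/
lemma rank_one (v : Fin 4 → R3) (i k : Fin 4) : M.det ∣
    (M.adjugate *ᵥ v) i * (M.adjugate *ᵥ v) k -
      M.adjugate i k * (v ⬝ᵥ M.adjugate *ᵥ v) := by
  obtain ⟨e1, h1⟩ := D.delta_mul v i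
  obtain ⟨e2, h2⟩ := D.delta_mul v k
  obtain ⟨e3, h3⟩ := D.minor i k
  obtain ⟨e4, h4⟩ := D.delta_sq v
  refine D.dvd_of_delta_mul (D.dvd_of_delta_mul ?_)
  rw [D.adj_symm 0 k] at h3
  set δ := M.adjugate 0 0
  set b := (M.adjugate *ᵥ v) 0
  set N := v ⬝ᵥ M.adjugate *ᵥ v
  set P := (M.adjugate *ᵥ v) i
  set Q := (M.adjugate *ᵥ v) k
  refine ⟨e1 * (δ * Q) + e2 * (M.adjugate i 0 * b) - e3 * δ * N -
    e4 * (M.adjugate i 0 * M.adjugate k 0), ?_⟩
  linear_combination (δ * Q) * h1 + (M.adjugate i 0 * b) * h2 - (δ * N) * h3 -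
    (M.adjugate i 0 * M.adjugate k 0) * h4

/-- (DE1) -/
theorem mem_iff (v : Fin 4 → R3) : v ⬝ᵥ M.adjugate *ᵥ v ∈ Ideal.span {M.det, g} ↔
    (M.adjugate *ᵥ v) 0 ^ 2 ∈ Ideal.span {M.adjugate 0 0 * g, M.det} := by
  obtain ⟨e, he⟩ := D.delta_sq v
  constructor
  · intro h
    obtain ⟨p, q, hpq⟩ := Ideal.mem_span_pair.1 h
    refine Ideal.mem_span_pair.2 ⟨q, M.adjugate 0 0 * p - e, ?_⟩
    linear_combination (M.adjugate 0 0) * hpq + he
  · intro h
    obtain ⟨p, q, hpq⟩ := Ideal.mem_span_pair.1 h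
    obtain ⟨w, hw⟩ : M.det ∣ v ⬝ᵥ M.adjugate *ᵥ v - p * g := by
      refine D.dvd_of_delta_mul ⟨e + q, ?_⟩
      linear_combination he - hpq
    exact Ideal.mem_span_pair.2 ⟨w, p, by linear_combination -hw⟩

/-- (DE2) Lifting. -/
theorem exists_lift {b : R3} (hb : b.IsHomogeneous (r + 3))
    (h : b ^ 2 ∈ Ideal.span {M.adjugate 0 0 * g, M.det}) :
    ∃ v : Fin 4 → R3, (∀ i, (v i).IsHomogeneous (r - 1 + w0 i)) ∧ (M.adjugate *ᵥ v) 0 = b := by
  obtain ⟨p, q, hpq⟩ := Ideal.mem_span_pair.1 h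
  have hu : ∀ j, ∃ u : R3, u.IsHomogeneous (r + 4 - w0 j) ∧
      M.det ∣ b * M.adjugate 0 j - M.adjugate 0 0 * u ∧ (j = 0 → u = b) := by
    intro j
    by_cases hj : j = 0
    · subst hj
      exact ⟨b, hb, by rw [mul_comm, sub_self]; exact dvd_zero _, fun _ => rfl⟩
    have hw : w0 j = 0 := by
      revert j
      decide
    have hw0 : w0 0 = 1 := rfl
    have h1 : (b * M.adjugate 0 j).IsHomogeneous (3 + (r + 4 - w0 j)) := by
      have := hb.mul (D.hadj 0 j)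
      rwa [hw, hw0, show r + 3 + (5 - 1 - 0) = 3 + (r + 4 - 0) by omega, ← hw] at this
    obtain ⟨e, he⟩ := D.minor j j
    rw [D.adj_symm j 0] at he
    obtain ⟨u, hu, hu'⟩ := hsqrt (c := p * g * M.adjugate j j) D.hf D.hs D.hδ h1
      D.not_dvd_delta (by
        refine ⟨q * M.adjugate 0 j ^ 2 - p * g * M.adjugate 0 0 * e, ?_⟩
        linear_combination (-(M.adjugate 0 j ^ 2)) * hpq - (p * g * M.adjugate 0 0) * he)
    exact ⟨u, hu, hu', fun h => absurd h hj⟩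
  choose u hu hu' hu0 using hu
  have hMu : ∀ i, M.det ∣ (M *ᵥ u) i := by
    intro i
    refine D.dvd_of_delta_mul ?_
    have h1 : M.adjugate 0 0 * (M *ᵥ u) i = b * (∑ j, M.adjugate 0 j * M j i) -
        ∑ j, M i j * (b * M.adjugate 0 j - M.adjugate 0 0 * u j) := by
      have h2 : ∀ j, M j i = M i j := fun j => D.hM.symm.apply i j
      rw [mulVec, dotProduct, Finset.mul_sum, Finset.mul_sum, ← Finset.sum_sub_distrib]
      exact Finset.sum_congr rfl fun j _ => by rw [h2]; ring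
    have h3 : ∑ j, M.adjugate 0 j * M j i = M.det * (1 : Matrix (Fin 4) (Fin 4) R3) 0 i := by
      have := congrFun (congrFun (Matrix.adjugate_mul M) 0) i
      rw [Matrix.mul_apply] at this
      exact this
    rw [h1, h3]
    exact dvd_sub ((Dvd.intro _ rfl).mul_left _)
      (Finset.dvd_sum fun j _ => (hu' j).mul_left _)
  have hhom : ∀ i, ((M *ᵥ u) i).IsHomogeneous (r + 5 + w0 i) := by
    intro i
    refine IsHomogeneous.sum _ _ _ fun j _ => ?_
    have h1 := (D.hdeg i j).mul (hu j)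
    have := w0_le j
    rwa [show 1 + w0 i + w0 j + (r + 4 - w0 j) = r + 5 + w0 i by omega] at h1
  have hv : ∀ i, ∃ v : R3, v.IsHomogeneous (r - 1 + w0 i) ∧ (M *ᵥ u) i = M.det * v := by
    intro i
    have h1 := homog_of_dvd D.hf (hhom i) (hMu i)
    have := D.hr
    rwa [show r + 5 + w0 i - 6 = r - 1 + w0 i by omega] at h1
  choose v hv hv' using hv
  refine ⟨v, hv, ?_⟩
  have h1 : M.adjugate *ᵥ (M *ᵥ u) = M.det • (M.adjugate *ᵥ v) := by
    rw [show M *ᵥ u = M.det • v from funext fun i => hv' i, mulVec_smul]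
  rw [mulVec_mulVec, adjugate_mul, smul_mulVec, one_mulVec] at h1
  have h2 := congrFun h1 0
  rw [Pi.smul_apply, Pi.smul_apply, smul_eq_mul, smul_eq_mul] at h2
  rw [← hu0 0 rfl]
  exact (mul_left_cancel₀ D.prime.ne_zero h2).symm

/-- (DE3) The kernel. -/
theorem ker_iff (v : Fin 4 → R3) : M.det ∣ (M.adjugate *ᵥ v) 0 ↔
    ∀ i, M.det ∣ (M.adjugate *ᵥ v) i := by
  constructor
  · intro h i
    have h1 := D.delta_mul v i
    rw [dvd_sub_left (h.mul_left _)] at h1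
    exact D.dvd_of_delta_mul h1
  · exact fun h => h 0

/-- `adj(M)` is injective. -/
lemma adj_inj {v : Fin 4 → R3} (h : M.adjugate *ᵥ v = 0) : v = 0 := by
  have h1 : M *ᵥ (M.adjugate *ᵥ v) = M.det • v := by
    rw [mulVec_mulVec, mul_adjugate, smul_mulVec, one_mulVec]
  rw [h, mulVec_zero] at h1
  funext i
  have h2 := congrFun h1 i
  rw [Pi.zero_apply, Pi.smul_apply, smul_eq_mul] at h2
  exact (mul_eq_zero.mp h2.symm).resolve_left D.prime.ne_zero

/-- vectors with all `z_i` divisible by `f` are in the image -/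
lemma exists_of_dvd {z : Fin 4 → R3} (hz : ∀ i, (z i).IsHomogeneous (r + 4 - w0 i))
    (h : ∀ i, M.det ∣ z i) : ∃ v : Fin 4 → R3, (∀ i, (v i).IsHomogeneous (r - 1 + w0 i)) ∧
      M.adjugate *ᵥ v = z := by
  have hu : ∀ i, ∃ u : R3, u.IsHomogeneous (r + 4 - w0 i - 6) ∧ z i = M.det * u ∧
      (r + 4 - w0 i < 6 → u = 0) := by
    intro i
    obtain ⟨u, hu, hu'⟩ := homog_of_dvd D.hf (hz i) (h i)
    refine ⟨u, hu, hu', fun hlt => ?_⟩
    have h0 := eq_zero_of_dvd D.hf (hz i) hlt (h i)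
    rw [h0] at hu'
    exact (mul_eq_zero.mp hu'.symm).resolve_left D.prime.ne_zero
  choose u hu hu' hu0 using hu
  refine ⟨M *ᵥ u, fun i => ?_, ?_⟩
  · refine IsHomogeneous.sum _ _ _ fun j _ => ?_
    by_cases hj : r + 4 - w0 j < 6
    · rw [hu0 j hj, mul_zero]
      exact isHomogeneous_zero _ _ _
    · have h1 := (D.hdeg i j).mul (hu j)
      have := w0_le j
      rwa [show 1 + w0 i + w0 j + (r + 4 - w0 j - 6) = r - 1 + w0 i by omega] at h1
  · rw [mulVec_mulVec, adjugate_mul, smul_mulVec, one_mulVec]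
    funext i
    rw [hu' i]
    rfl

end E1Data

end Vale.Agent.P287.H621
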