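import Vale.Agent.P287.H621.D1
import Vale.Agent.P287.H908.PhiLemma

/-!
The block [D1], in the notation of the assembly.
-/

namespace Vale.Agent.P287.H621

open Polynomial Vale.Agent.P287 Vale.Agent.P287.Theta Matrix Module Vale.Agent.P287.H684

/-- **[D1]** in good coordinates. -/
theorem even_Yd_frame {M : Matrix (Fin 4) (Fin 4) R3} (hsym : M.IsSymm)
    (hdeg : ∀ i j, (M i j).IsHomogeneous (1 + H925.wt i + H925.wt j)) {g : R3} {m : ℕ}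
    {A : Matrix (Fin 3) (Fin 3) R3} {b : Fin 3 → R3} {c c1 : ℂ}
    (D : D1Data M.det g (M.adjugate 3 3) m A b c c1) (hm : 2 ≤ m)
    {T S : Matrix (Fin 3) (Fin 3) ℂ} (hTS : T * S = 1) {v : ℂ} (hv : v ≠ 0)
    {g' f' : ℂ[X][X]} (hg' : g' = C (C v) * dh (sb T g))
    (hf' : f' = C (C (-c)) * dh (sb T M.det)) {A' : Matrix (Fin 3) (Fin 3) ℂ[X][X]}
    (hA' : A' = A.map (fun P => dh (sb T P))) (K : Odd.Curve m g' f')
    (hQ : Odd.Quadrics g' f' A') {J : Ideal ℂ[X][X]} (hJ : Odd.Half m g' f' J)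
    (hJ' : ∀ c, c ^ 2 ∈ Ideal.span {f', g'} → c ∈ J)
    (hV : ∀ c : R3, c.IsHomogeneous (m + 2) → c ^ 2 ∈ Ideal.span {g, M.det} → M.det ∣ c) :
    Even (finrank ℂ (Odd.Yd (2 * m + 1) (m - 1) (Odd.modX A' J))) := by
  have hphi : ∀ φ : R3, φ.IsHomogeneous 3 → φ ^ 2 ∈ Ideal.span {M.adjugate 3 3, M.det} →
      ∃ l : ℂ, φ = MvPolynomial.C l * M.adjugate 3 3 := fun φ hφ h =>
    H908.phi_lemma₃ hsym hdeg D.hs D.prime D.hδ0 hφ h
  subst hA'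
  exact D.even_Yd hm hphi hTS (neg_ne_zero.mpr D.hc) hv hf' hg' K hQ hJ hJ' hV

/-- **[D1]** in good coordinates, the parity in general. -/
theorem even_Yd_iff_frame {M : Matrix (Fin 4) (Fin 4) R3} (hsym : M.IsSymm)
    (hdeg : ∀ i j, (M i j).IsHomogeneous (1 + H925.wt i + H925.wt j)) {g : R3} {m : ℕ}
    {A : Matrix (Fin 3) (Fin 3) R3} {b : Fin 3 → R3} {c c1 : ℂ}
    (D : D1Data M.det g (M.adjugate 3 3) m A b c c1) (hm : 2 ≤ m)
    {T S : Matrix (Fin 3) (Fin 3) ℂ} (hTS : T * S = 1) {v : ℂ} (hv : v ≠ 0)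
    {g' f' : ℂ[X][X]} (hg' : g' = C (C v) * dh (sb T g))
    (hf' : f' = C (C (-c)) * dh (sb T M.det)) {A' : Matrix (Fin 3) (Fin 3) ℂ[X][X]}
    (hA' : A' = A.map (fun P => dh (sb T P))) (K : Odd.Curve m g' f')
    (hQ : Odd.Quadrics g' f' A') {J : Ideal ℂ[X][X]} (hJ : Odd.Half m g' f' J)
    (hJ' : ∀ c, c ^ 2 ∈ Ideal.span {f', g'} → c ∈ J) (hk : 2 * m + 1 ≤ 2 * (m + 2)) :
    Even (finrank ℂ (Odd.Yd (2 * m + 1) (m - 1) (Odd.modX A' J))) ↔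
      Even (finrank ℂ ((D.curvePair.J (m + 2) hk).map (modf M.det))) := by
  have hphi : ∀ φ : R3, φ.IsHomogeneous 3 → φ ^ 2 ∈ Ideal.span {M.adjugate 3 3, M.det} →
      ∃ l : ℂ, φ = MvPolynomial.C l * M.adjugate 3 3 := fun φ hφ h =>
    H908.phi_lemma₃ hsym hdeg D.hs D.prime D.hδ0 hφ h
  subst hA'
  exact D.even_Yd_iff hm hphi hTS (neg_ne_zero.mpr D.hc) hv hf' hg' K hQ hJ hJ' hk

end Vale.Agent.P287.H621
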