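import Vale.Agent.P287.H621.D1c
import Vale.Agent.P287.H684.TW
import Vale.Agent.P287.Odd.Spec

/-!
The block [D1]: the parity of the dimension of `X_{m-1}`, in the affine form of `Odd/Spec.lean`.
-/

namespace Vale.Agent.P287.H621

open Polynomial Vale.Agent.P287 Vale.Agent.P287.Theta Matrix Module Vale.Agent.P287.H684

lemma Wd_iff_TW {d : ℕ} {P : ℂ[X][X]} : Odd.Wd d P ↔ TW d P := TW_iff.symm

lemma TW_iff_TD {d : ℕ} {P : ℂ[X][X]} : TW d P ↔ TD d P := (TD_iff d P).symm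

lemma Wd_iff_TD {d : ℕ} {P : ℂ[X][X]} : Odd.Wd d P ↔ TD d P := Wd_iff_TW.trans TW_iff_TD

section chart

variable {T S : Matrix (Fin 3) (Fin 3) ℂ}

/-- The affine chart after a change of coordinates. -/
noncomputable def ch (T : Matrix (Fin 3) (Fin 3) ℂ) : R3 →ₐ[ℂ] ℂ[X][X] := dh.comp (sb T)

lemma ch_apply (T : Matrix (Fin 3) (Fin 3) ℂ) (P : R3) : ch T P = dh (sb T P) := rfl

lemma TD_ch {P : R3} {d : ℕ} (hP : P.IsHomogeneous d) : TD d (ch T P) := TD_dh (sb_homog T hP)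

lemma ch_surj (hTS : T * S = 1) {d : ℕ} {p : ℂ[X][X]} (hp : TD d p) :
    ∃ P : R3, P.IsHomogeneous d ∧ ch T P = p := by
  obtain ⟨P, hP, hPp⟩ := exists_homog hp
  exact ⟨sb S P, sb_homog S hP, by rw [ch_apply, sb_inv (mul_eq_one_comm.mp hTS), hPp]⟩

lemma ch_inj (hTS : T * S = 1) {d : ℕ} {P Q : R3} (hP : P.IsHomogeneous d)
    (hQ : Q.IsHomogeneous d) (h : ch T P = ch T Q) : P = Q := by
  have h1 := dh_inj (sb_homog T hP) (sb_homog T hQ) h
  have h2 := congrArg (sb S) h1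
  rwa [sb_inv hTS, sb_inv hTS] at h2

lemma top_ne_of_monic {n : ℕ} {g : ℂ[X][X]} (hg : g.Monic) (hn : g.natDegree = n) :
    top n g ≠ 0 := by
  intro h
  have h1 := coeff_Th g n n
  rw [show (Th g).coeff n = top n g from rfl, h, coeff_zero, if_pos le_rfl, Nat.sub_self] at h1
  have h2 : g.coeff n = 1 := by
    rw [← hn]
    exact hg
  rw [h2, coeff_one_zero] at h1
  exact zero_ne_one h1

/-- Membership in the ideal `(f, g)` can be tested in the chart. -/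
theorem mem_of_ch (hTS : T * S = 1) {f g : R3} {m d : ℕ} (hf : f.IsHomogeneous 6)
    (hg : g.IsHomogeneous (2 * m + 1)) {f' g' : ℂ[X][X]} {u v : ℂ}
    (hf' : f' = C (C u) * ch T f) (hg' : g' = C (C v) * ch T g) (K : Odd.Curve m g' f')
    {N : R3} (hN : N.IsHomogeneous d) (h6 : 6 ≤ d) (hd : 2 * m + 1 ≤ d)
    (h : ch T N ∈ Ideal.span {f', g'}) : N ∈ Ideal.span {f, g} := by
  obtain ⟨U, V, hUV⟩ := Ideal.mem_span_pair.1 h
  have hdiv := modByMonic_add_div U g'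
  set r := U %ₘ g' with hr
  set V' := V + f' * (U /ₘ g') with hV'
  have hTWg : TW (2 * m + 1) g' := Wd_iff_TW.1 K.wd
  have h1 : TW d (ch T N) := TW_iff_TD.2 (TD_ch hN)
  have hsum : ch T N = f' * r + g' * V' := by
    rw [hV', ← hUV]
    linear_combination (-f') * hdiv
  have h2 : (f' * r) %ₘ g' = (ch T N) %ₘ g' := by
    rw [hsum, add_modByMonic, (modByMonic_eq_zero_iff_dvd K.monic).mpr (dvd_mul_right _ _),
      add_zero]
  have h3 : Odd.Wd (d - 6 + 6) ((f' * r) %ₘ g') := by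
    rw [Nat.sub_add_cancel h6, h2]
    exact Wd_iff_TW.2 (TW.modByMonic K.monic K.deg hTWg h1)
  have hcoeff : ∀ j, 2 * m + 1 ≤ j → r.coeff j = 0 := by
    intro j hj
    refine coeff_eq_zero_of_degree_lt ?_
    refine (degree_modByMonic_lt U K.monic).trans_le ?_
    rw [degree_eq_natDegree K.monic.ne_zero, K.deg]
    exact_mod_cast hj
  have h4 : TD (d - 6) r := Wd_iff_TD.1 (K.inf.2 _ r hcoeff h3)
  have hf'TD : TD 6 f' := Wd_iff_TD.1 K.inf.1
  have h5 : TD (2 * m + 1 + (d - (2 * m + 1))) (g' * V') := by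
    have e1 : g' * V' = ch T N - f' * r := by rw [hsum]; ring
    rw [e1, show 2 * m + 1 + (d - (2 * m + 1)) = d by omega]
    refine (TD_ch hN).sub ?_
    have := hf'TD.mul h4
    rwa [show 6 + (d - 6) = d by omega] at this
  have h7 : TD (d - (2 * m + 1)) V' :=
    TD_of_mul (Wd_iff_TD.1 K.wd) (top_ne_of_monic K.monic K.deg) h5
  obtain ⟨P, hP, hPp⟩ := ch_surj hTS (h4.smul u)
  obtain ⟨Q, hQ, hQq⟩ := ch_surj hTS (h7.smul v)
  have h8 : N = P * f + Q * g := by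
    refine ch_inj hTS hN ?_ ?_
    · refine MvPolynomial.IsHomogeneous.add ?_ ?_
      · have := hP.mul hf
        rwa [show d - 6 + 6 = d by omega] at this
      · have := hQ.mul hg
        rwa [show d - (2 * m + 1) + (2 * m + 1) = d by omega] at this
    · rw [map_add, map_mul, map_mul, hPp, hQq, hsum, hf', hg']
      ring
  exact Ideal.mem_span_pair.2 ⟨P, Q, h8.symm⟩

lemma ch_mem {f g : R3} {f' g' : ℂ[X][X]} {u v : ℂ} (hu : u ≠ 0) (hv : v ≠ 0)
    (hf' : f' = C (C u) * ch T f) (hg' : g' = C (C v) * ch T g) {N : R3}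
    (h : N ∈ Ideal.span {f, g}) : ch T N ∈ Ideal.span {f', g'} := by
  obtain ⟨P, Q, rfl⟩ := Ideal.mem_span_pair.1 h
  have h1 : (C (C u⁻¹) * C (C u) : ℂ[X][X]) = 1 := by
    rw [← C_mul, ← C_mul, inv_mul_cancel₀ hu, C_1, C_1]
  have h2 : (C (C v⁻¹) * C (C v) : ℂ[X][X]) = 1 := by
    rw [← C_mul, ← C_mul, inv_mul_cancel₀ hv, C_1, C_1]
  refine Ideal.mem_span_pair.2 ⟨C (C u⁻¹) * ch T P, C (C v⁻¹) * ch T Q, ?_⟩
  rw [hf', hg', map_add, map_mul, map_mul]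
  linear_combination (ch T P * ch T f) * h1 + (ch T Q * ch T g) * h2

/-- the map from pairs of forms to vectors of affine polynomials -/
noncomputable def toY (T : Matrix (Fin 3) (Fin 3) ℂ) (Y : Submodule ℂ (Fin 3 → R3))
    (W : Submodule ℂ R3) : (Y × W) →ₗ[ℂ] (Fin 4 → ℂ[X][X]) :=
  LinearMap.pi (Fin.cases ((ch T).toLinearMap ∘ₗ W.subtype ∘ₗ LinearMap.snd ℂ Y W)
    (fun i => (ch T).toLinearMap ∘ₗ LinearMap.proj i ∘ₗ Y.subtype ∘ₗ LinearMap.fst ℂ Y W))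

lemma toY_zero (Y : Submodule ℂ (Fin 3 → R3)) (W : Submodule ℂ R3) (p : Y × W) :
    toY T Y W p 0 = ch T (p.2 : R3) := rfl

lemma toY_succ (Y : Submodule ℂ (Fin 3 → R3)) (W : Submodule ℂ R3) (p : Y × W) (i : Fin 3) :
    toY T Y W p i.succ = ch T ((p.1 : Fin 3 → R3) i) := rfl

end chart

lemma adj_map (T : Matrix (Fin 3) (Fin 3) ℂ) (A : Matrix (Fin 3) (Fin 3) R3) (a : Fin 3 → R3)
    (i : Fin 3) :
    ((A.map (ch T)).adjugate *ᵥ fun j => ch T (a j)) i = ch T ((A.adjugate *ᵥ a) i) := by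
  have h1 : (A.map (ch T)).adjugate = A.adjugate.map (ch T) :=
    (AlgHom.map_adjugate (ch T) A).symm
  rw [h1]
  simp only [mulVec, dotProduct, Fin.sum_univ_three, map_add, map_mul, Matrix.map_apply]

lemma wd_En {k n : ℕ} (hkn : k < n) {p : ℂ[X][X]} (hp : TD k p) : p ∈ Odd.En (k := ℂ) n k :=
  ⟨Wd_iff_TD.2 hp, fun j hj => (TW_iff_TD.2 hp).coeff_eq_zero (by omega)⟩

namespace D1Data

variable {f g δ : R3} {m : ℕ} {A : Matrix (Fin 3) (Fin 3) R3} {b : Fin 3 → R3} {c c1 : ℂ}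
variable (D : D1Data f g δ m A b c c1)
include D

theorem curvePair : CurvePair f g (2 * m + 1) := ⟨D.hf, D.prime, D.hs, D.hg, D.hfg⟩

lemma rank_one (a : Fin 3 → R3) (i k : Fin 3) :
    f ∣ (A.adjugate *ᵥ a) i * (A.adjugate *ᵥ a) k - A.adjugate i k * (a ⬝ᵥ A.adjugate *ᵥ a) := by
  obtain ⟨e1, h1⟩ := D.b_mul a i
  obtain ⟨e2, h2⟩ := D.b_mul a k
  obtain ⟨e3, h3⟩ := D.hbb i k
  obtain ⟨e4, h4⟩ := D.sq a
  refine D.dvd_of_dg_mul (D.dvd_of_C_mul D.hc1 (D.dvd_of_dg_mul (D.dvd_of_C_mul D.hc1 ?_)))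
  set β := a ⬝ᵥ b
  set N := a ⬝ᵥ A.adjugate *ᵥ a
  set P := (A.adjugate *ᵥ a) i
  set Q := (A.adjugate *ᵥ a) k
  set c' : R3 := MvPolynomial.C c1
  refine ⟨- e1 * (b k * β) - e2 * (b i * β) + f * e1 * e2 + e3 * β ^ 2 + e4 * (b i * b k)
    - f * e3 * e4, ?_⟩
  linear_combination (-(b k * β) + f * e2) * h1 + (-c' * (δ * g * P)) * h2 +
    (β ^ 2 - f * e4) * h3 + (c' * (δ * g * A.adjugate i k)) * h4

variable {T S : Matrix (Fin 3) (Fin 3) ℂ}

/-- The space `X_{m-1}` of `Odd/Spec.lean` is the sum of `Y_m` and `J_{m+2}`. -/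
theorem range_toY (hm : 2 ≤ m)
    (hphi : ∀ φ : R3, φ.IsHomogeneous 3 → φ ^ 2 ∈ Ideal.span {δ, f} →
      ∃ l : ℂ, φ = MvPolynomial.C l * δ)
    (hTS : T * S = 1) {f' g' : ℂ[X][X]} {u v : ℂ} (hu : u ≠ 0) (hv : v ≠ 0)
    (hf' : f' = C (C u) * ch T f) (hg' : g' = C (C v) * ch T g) (K : Odd.Curve m g' f')
    (hQ : Odd.Quadrics g' f' (A.map (ch T))) {J : Ideal ℂ[X][X]} (hJ : Odd.Half m g' f' J)
    (hJ' : ∀ c, c ^ 2 ∈ Ideal.span {f', g'} → c ∈ J) (hk : 2 * m + 1 ≤ 2 * (m + 2)) :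
    LinearMap.range (toY T (YL f g δ m b) (D.curvePair.J (m + 2) hk)) =
      Odd.Yd (2 * m + 1) (m - 1) (Odd.modX (A.map (ch T)) J) := by
  have hmod : ∀ x : R3, x ^ 2 ∈ Ideal.span {f, g} → ch T x ∈ J := by
    intro x hx
    apply hJ'
    rw [← map_pow]
    exact ch_mem hu hv hf' hg' hx
  have hfI : ch T f ∈ Ideal.span {f', g'} :=
    ch_mem hu hv hf' hg' (Ideal.subset_span (by simp))
  apply le_antisymm
  · rintro _ ⟨p, rfl⟩
    obtain ⟨ha, l, hl⟩ := p.1.2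
    obtain ⟨hc, hc2⟩ := p.2.2
    refine ⟨⟨?_, fun i => ?_⟩, fun i _ => ?_⟩
    · rw [toY_zero]
      apply hmod
      rw [Set.pair_comm]
      exact hc2
    · have h1 : Odd.av (toY T (YL f g δ m b) (D.curvePair.J (m + 2) hk) p) =
        fun j => ch T ((p.1 : Fin 3 → R3) j) := rfl
      rw [h1, adj_map]
      apply hmod
      obtain ⟨e, he⟩ := D.rank_one (p.1 : Fin 3 → R3) i i
      have h2 := D.mem_of_lam hl
      have h3 : (A.adjugate *ᵥ (p.1 : Fin 3 → R3)) i ^ 2 = f * e + A.adjugate i i *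
          ((p.1 : Fin 3 → R3) ⬝ᵥ A.adjugate *ᵥ (p.1 : Fin 3 → R3)) := by linear_combination he
      rw [h3]
      exact Ideal.add_mem _ (Ideal.mul_mem_right _ _ (Ideal.subset_span (by simp)))
        (Ideal.mul_mem_left _ _ h2)
    · refine Fin.cases ?_ (fun j => ?_) i
      · change ch T (p.2 : R3) ∈ Odd.En (2 * m + 1) (m - 1 + 3)
        rw [show m - 1 + 3 = m + 2 by omega]
        exact wd_En (by omega) (TD_ch hc)
      · change ch T ((p.1 : Fin 3 → R3) j) ∈ Odd.En (2 * m + 1) (m - 1 + Odd.wt4 j.succ)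
        rw [show m - 1 + Odd.wt4 j.succ = m by
          have : Odd.wt4 j.succ = 1 := by fin_cases j <;> rfl
          omega]
        exact wd_En (by omega) (TD_ch (ha j))
  · rintro w ⟨⟨hw0, hw1⟩, hwE⟩
    have h0 : TD (m + 2) (w 0) := by
      have h1 := (hwE 0 (Set.mem_univ _)).1
      change Odd.Wd (m - 1 + 3) (w 0) at h1
      rw [show m - 1 + 3 = m + 2 by omega] at h1
      exact Wd_iff_TD.1 h1
    have h1 : ∀ j : Fin 3, TD m (w j.succ) := by
      intro j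
      have h1 := (hwE j.succ (Set.mem_univ _)).1
      rw [show m - 1 + Odd.wt4 j.succ = m by
          have : Odd.wt4 j.succ = 1 := by fin_cases j <;> rfl
          omega] at h1
      exact Wd_iff_TD.1 h1
    obtain ⟨c, hc, hcw⟩ := ch_surj hTS h0
    choose a ha haw using fun j => ch_surj hTS (h1 j)
    have hav : Odd.av w = fun j => ch T (a j) := by
      funext j
      exact (haw j).symm
    have hx : ∀ i, ch T ((A.adjugate *ᵥ a) i) ∈ J := by
      intro i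
      have h2 := hw1 i
      rwa [hav, adj_map] at h2
    have hc2 : c ^ 2 ∈ Ideal.span {g, f} := by
      rw [Set.pair_comm]
      have h2 := hc.pow 2
      refine mem_of_ch hTS D.hf D.hg hf' hg' K h2 (by omega) (by omega) ?_
      rw [map_pow, hcw, pow_two]
      exact hJ.mul_mem _ hw0 _ hw0
    have hN : a ⬝ᵥ A.adjugate *ᵥ a ∈ Ideal.span {f, g} := by
      have h2 := homog_dot ha (homog_mulVec (homog_adj D.hA) ha)
      refine mem_of_ch hTS D.hf D.hg hf' hg' K h2 (by omega) (by omega) ?_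
      have h3 : ∀ i k, ch T (A.adjugate i k) * ch T (a ⬝ᵥ A.adjugate *ᵥ a) ∈
          Ideal.span {f', g'} := by
        intro i k
        obtain ⟨e, he⟩ := D.rank_one a i k
        have h4 : A.adjugate i k * (a ⬝ᵥ A.adjugate *ᵥ a) =
            (A.adjugate *ᵥ a) i * (A.adjugate *ᵥ a) k - f * e := by linear_combination -he
        rw [← map_mul, h4, map_sub, map_mul, map_mul]
        exact Ideal.sub_mem _ (hJ.mul_mem _ (hx i) _ (hx k)) (Ideal.mul_mem_right _ _ hfI)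
      set z := ch T (a ⬝ᵥ A.adjugate *ᵥ a) with hz
      set K₁ : Ideal ℂ[X][X] :=
        Submodule.comap (LinearMap.mulRight ℂ[X][X] z) (Ideal.span {f', g'}) with hK₁
      have h5 : (⊤ : Ideal ℂ[X][X]) ≤ K₁ := by
        rw [← hQ.rank]
        refine sup_le ?_ ?_
        · rw [Ideal.span_le]
          rintro _ ⟨⟨i, k⟩, rfl⟩
          change (A.map (ch T)).adjugate i k * z ∈ Ideal.span {f', g'}
          have h6 : (A.map (ch T)).adjugate = A.adjugate.map (ch T) :=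
            (AlgHom.map_adjugate (ch T) A).symm
          rw [h6]
          exact h3 i k
        · intro x hx
          exact Ideal.mul_mem_right z _ hx
      have h6 : (1 : ℂ[X][X]) * z ∈ Ideal.span {f', g'} := h5 (Submodule.mem_top)
      rwa [one_mul] at h6
    refine ⟨(⟨a, (D.mem_YL hphi a).2 ⟨ha, hN⟩⟩, ⟨c, hc, hc2⟩), ?_⟩
    funext i
    refine Fin.cases ?_ (fun j => ?_) i
    · rw [toY_zero]
      exact hcw
    · rw [toY_succ]
      exact haw j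

lemma finite_YL (hm : 2 ≤ m) : Module.Finite ℂ (YL f g δ m b) := by
  apply Module.finite_of_finrank_pos
  rw [D.finrank_YL hm]
  omega

/-- The dimension of `X_{m-1}`. -/
theorem finrank_Yd (hm : 2 ≤ m)
    (hphi : ∀ φ : R3, φ.IsHomogeneous 3 → φ ^ 2 ∈ Ideal.span {δ, f} →
      ∃ l : ℂ, φ = MvPolynomial.C l * δ)
    (hTS : T * S = 1) {f' g' : ℂ[X][X]} {u v : ℂ} (hu : u ≠ 0) (hv : v ≠ 0)
    (hf' : f' = C (C u) * ch T f) (hg' : g' = C (C v) * ch T g) (K : Odd.Curve m g' f')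
    (hQ : Odd.Quadrics g' f' (A.map (ch T))) {J : Ideal ℂ[X][X]} (hJ : Odd.Half m g' f' J)
    (hJ' : ∀ c, c ^ 2 ∈ Ideal.span {f', g'} → c ∈ J) (hk : 2 * m + 1 ≤ 2 * (m + 2)) :
    finrank ℂ (Odd.Yd (2 * m + 1) (m - 1) (Odd.modX (A.map (ch T)) J)) =
      finrank ℂ (YL f g δ m b) + finrank ℂ (D.curvePair.J (m + 2) hk) := by
  have := D.finite_YL hm
  rw [← D.range_toY hm hphi hTS hu hv hf' hg' K hQ hJ hJ' hk, LinearMap.finrank_range_of_inj,
    Module.finrank_prod]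
  rw [← LinearMap.ker_eq_bot, LinearMap.ker_eq_bot']
  rintro ⟨⟨a, ha⟩, ⟨c, hc⟩⟩ h
  have h0 := congrFun h 0
  rw [toY_zero] at h0
  have hc0 : c = 0 := ch_inj (T := T) hTS hc.1 (MvPolynomial.isHomogeneous_zero _ _ _)
    (by rw [map_zero]; exact h0)
  have ha0 : a = 0 := by
    funext j
    have h1 := congrFun h j.succ
    rw [toY_succ] at h1
    exact ch_inj (T := T) hTS (ha.1 j) (MvPolynomial.isHomogeneous_zero _ _ _)
      (by rw [Pi.zero_apply, map_zero]; exact h1)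
  subst hc0 ha0
  rfl

/-- **[D1]** The parity of the dimension of `X_{m-1}`. -/
theorem even_Yd_iff (hm : 2 ≤ m)
    (hphi : ∀ φ : R3, φ.IsHomogeneous 3 → φ ^ 2 ∈ Ideal.span {δ, f} →
      ∃ l : ℂ, φ = MvPolynomial.C l * δ)
    (hTS : T * S = 1) {f' g' : ℂ[X][X]} {u v : ℂ} (hu : u ≠ 0) (hv : v ≠ 0)
    (hf' : f' = C (C u) * ch T f) (hg' : g' = C (C v) * ch T g) (K : Odd.Curve m g' f')
    (hQ : Odd.Quadrics g' f' (A.map (ch T))) {J : Ideal ℂ[X][X]} (hJ : Odd.Half m g' f' J)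
    (hJ' : ∀ c, c ^ 2 ∈ Ideal.span {f', g'} → c ∈ J) (hk : 2 * m + 1 ≤ 2 * (m + 2)) :
    Even (finrank ℂ (Odd.Yd (2 * m + 1) (m - 1) (Odd.modX (A.map (ch T)) J))) ↔
      Even (finrank ℂ ((D.curvePair.J (m + 2) hk).map (modf f))) := by
  rw [D.finrank_Yd hm hphi hTS hu hv hf' hg' K hQ hJ hJ' hk]
  exact D.curvePair.parity hm hk (D.finrank_YL hm)

/-- **[D1]**, the case without sections modulo `f`. -/
theorem even_Yd (hm : 2 ≤ m)
    (hphi : ∀ φ : R3, φ.IsHomogeneous 3 → φ ^ 2 ∈ Ideal.span {δ, f} →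
      ∃ l : ℂ, φ = MvPolynomial.C l * δ)
    (hTS : T * S = 1) {f' g' : ℂ[X][X]} {u v : ℂ} (hu : u ≠ 0) (hv : v ≠ 0)
    (hf' : f' = C (C u) * ch T f) (hg' : g' = C (C v) * ch T g) (K : Odd.Curve m g' f')
    (hQ : Odd.Quadrics g' f' (A.map (ch T))) {J : Ideal ℂ[X][X]} (hJ : Odd.Half m g' f' J)
    (hJ' : ∀ c, c ^ 2 ∈ Ideal.span {f', g'} → c ∈ J)
    (hV : ∀ c : R3, c.IsHomogeneous (m + 2) → c ^ 2 ∈ Ideal.span {g, f} → f ∣ c) :
    Even (finrank ℂ (Odd.Yd (2 * m + 1) (m - 1) (Odd.modX (A.map (ch T)) J))) := by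
  have hk : 2 * m + 1 ≤ 2 * (m + 2) := by omega
  rw [D.even_Yd_iff hm hphi hTS hu hv hf' hg' K hQ hJ hJ' hk, D.curvePair.finrank_map_eq_zero hk hV]
  exact ⟨0, rfl⟩

end D1Data

end Vale.Agent.P287.H621
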