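import Vale.Agent.P287.H621.HSqrt

/-!
The space `Y_m = {a ∈ (R_m)^3 : a . adj(A) a ∈ (f, g)}` for a symmetric `3 × 3` matrix `A` of
quadratic forms with `det A = c f` whose adjugate is `b b^T / (c1 δ g)` modulo `f`.
-/

namespace Vale.Agent.P287.H621

open MvPolynomial Vale.Agent.P287 Vale.Agent.P287.Theta Matrix

/-- The data produced by the Verra part. -/
structure D1Data (f g δ : R3) (m : ℕ) (A : Matrix (Fin 3) (Fin 3) R3) (b : Fin 3 → R3)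
    (c c1 : ℂ) : Prop where
  hf : f.IsHomogeneous 6
  hs : SmoothTernary f
  hg : g.IsHomogeneous (2 * m + 1)
  hfg : ¬ f ∣ g
  hδ : δ.IsHomogeneous 3
  hδ0 : δ ≠ 0
  symm : A.IsSymm
  hA : ∀ i j, (A i j).IsHomogeneous 2
  hdet : A.det = C c * f
  hc : c ≠ 0
  hb : ∀ i, (b i).IsHomogeneous (m + 4)
  hbb : ∀ i j, f ∣ b i * b j - C c1 * (δ * g * A.adjugate i j)
  hc1 : c1 ≠ 0
  hb0 : ∃ i, ¬ f ∣ b i

lemma homog_dot {a b : Fin 3 → R3} {m n : ℕ} (ha : ∀ i, (a i).IsHomogeneous m)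
    (hb : ∀ i, (b i).IsHomogeneous n) : (a ⬝ᵥ b).IsHomogeneous (m + n) :=
  IsHomogeneous.sum _ _ _ fun i _ => (ha i).mul (hb i)

lemma homog_mulVec {A : Matrix (Fin 3) (Fin 3) R3} {b : Fin 3 → R3} {m n : ℕ}
    (hA : ∀ i j, (A i j).IsHomogeneous m) (hb : ∀ i, (b i).IsHomogeneous n) (i : Fin 3) :
    ((A *ᵥ b) i).IsHomogeneous (m + n) :=
  IsHomogeneous.sum _ _ _ fun j _ => (hA i j).mul (hb j)

lemma homog_adj {A : Matrix (Fin 3) (Fin 3) R3} {m : ℕ} (hA : ∀ i j, (A i j).IsHomogeneous m)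
    (i j : Fin 3) : (A.adjugate i j).IsHomogeneous (m + m) := by
  rw [Matrix.adjugate_fin_succ_eq_det_submatrix]
  have h1 := isHomogeneous_det (X := A.submatrix j.succAbove i.succAbove) (m := m)
    (fun k l => hA _ _)
  have h2 : ((-1 : R3) ^ (j + i : ℕ)).IsHomogeneous 0 := by
    have h3 : (-1 : R3) = C (-1) := by rw [C_neg, C_1]
    rw [h3, ← C_pow]
    exact isHomogeneous_C _ _
  have h3 := h2.mul h1
  rwa [show 0 + 2 * m = m + m by ring] at h3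

lemma homog_Cmul {P : R3} {n : ℕ} (c : ℂ) (hP : P.IsHomogeneous n) :
    (C c * P).IsHomogeneous n := by
  have := (isHomogeneous_C (Fin 3) c).mul hP
  rwa [zero_add] at this

lemma C_ne {c : ℂ} (hc : c ≠ 0) : (C c : R3) ≠ 0 := by
  rw [Ne, C_eq_zero]; exact hc

namespace D1Data

variable {f g δ : R3} {m : ℕ} {A : Matrix (Fin 3) (Fin 3) R3} {b : Fin 3 → R3} {c c1 : ℂ}
variable (D : D1Data f g δ m A b c c1)
include D

lemma prime : Prime f := (irreducible_of_smooth D.hf (by norm_num) D.hs).prime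

lemma not_dvd_delta : ¬ f ∣ δ := fun h => D.hδ0 (eq_zero_of_dvd D.hf D.hδ (by norm_num) h)

lemma not_dvd_dg : ¬ f ∣ δ * g := fun h =>
  (D.prime.dvd_or_dvd h).elim D.not_dvd_delta D.hfg

lemma not_dvd_C {t : ℂ} (ht : t ≠ 0) : ¬ f ∣ C t := fun h =>
  C_ne ht (eq_zero_of_dvd D.hf (isHomogeneous_C (Fin 3) t) (by norm_num) h)

lemma dvd_of_C_mul {t : ℂ} (ht : t ≠ 0) {P : R3} (h : f ∣ C t * P) : f ∣ P :=
  (D.prime.dvd_or_dvd h).resolve_left (D.not_dvd_C ht)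

lemma dvd_of_dg_mul {P : R3} (h : f ∣ δ * g * P) : f ∣ P :=
  (D.prime.dvd_or_dvd h).resolve_left D.not_dvd_dg

lemma b_mul (a : Fin 3 → R3) (k : Fin 3) :
    f ∣ b k * (a ⬝ᵥ b) - C c1 * (δ * g * (A.adjugate *ᵥ a) k) := by
  have h : b k * (a ⬝ᵥ b) - C c1 * (δ * g * (A.adjugate *ᵥ a) k) =
      ∑ j, a j * (b k * b j - C c1 * (δ * g * A.adjugate k j)) := by
    simp only [dotProduct, mulVec, Fin.sum_univ_three]
    ring
  rw [h]
  exact Finset.dvd_sum fun j _ => (D.hbb k j).mul_left _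

lemma sq (a : Fin 3 → R3) :
    f ∣ (a ⬝ᵥ b) ^ 2 - C c1 * (δ * g * (a ⬝ᵥ A.adjugate *ᵥ a)) := by
  have h : (a ⬝ᵥ b) ^ 2 - C c1 * (δ * g * (a ⬝ᵥ A.adjugate *ᵥ a)) =
      ∑ k, a k * (b k * (a ⬝ᵥ b) - C c1 * (δ * g * (A.adjugate *ᵥ a) k)) := by
    simp only [dotProduct, mulVec, Fin.sum_univ_three]
    ring
  rw [h]
  exact Finset.dvd_sum fun k _ => (D.b_mul a k).mul_left _

lemma mul_adj (a : Fin 3 → R3) (i : Fin 3) : (A *ᵥ (A.adjugate *ᵥ a)) i = C c * f * a i := by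
  rw [mulVec_mulVec, mul_adjugate, D.hdet, smul_mulVec, one_mulVec]
  rfl

lemma adj_mul (a : Fin 3 → R3) (i : Fin 3) : (A.adjugate *ᵥ (A *ᵥ a)) i = C c * f * a i := by
  rw [mulVec_mulVec, adjugate_mul, D.hdet, smul_mulVec, one_mulVec]
  rfl

/-- A matrix `A` is injective. -/
lemma eq_zero_of_mulVec {r : Fin 3 → R3} (h : A *ᵥ r = 0) : r = 0 := by
  funext i
  have h1 := D.adj_mul r i
  rw [h, mulVec_zero, Pi.zero_apply] at h1
  exact (mul_eq_zero.mp h1.symm).resolve_left (mul_ne_zero (C_ne D.hc) D.prime.ne_zero)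

/-- The linear form `β_a = a . b` on the space `Y_m`. -/
theorem exists_lam
    (hphi : ∀ φ : R3, φ.IsHomogeneous 3 → φ ^ 2 ∈ Ideal.span {δ, f} → ∃ l : ℂ, φ = C l * δ)
    {a : Fin 3 → R3} (ha : ∀ i, (a i).IsHomogeneous m)
    (h : a ⬝ᵥ A.adjugate *ᵥ a ∈ Ideal.span {f, g}) : ∃ l : ℂ, f ∣ a ⬝ᵥ b - C l * (δ * g) := by
  obtain ⟨u, w, huw⟩ := Ideal.mem_span_pair.1 h
  obtain ⟨E, hE⟩ := D.sq a
  have h1 : f ∣ (a ⬝ᵥ b) ^ 2 - g ^ 2 * (C c1 * (δ * w)) := by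
    refine ⟨E + C c1 * (δ * g * u), ?_⟩
    linear_combination hE - C c1 * (δ * g) * huw
  have h2 : (a ⬝ᵥ b).IsHomogeneous (2 * m + 1 + 3) := by
    have := homog_dot ha D.hb
    rwa [show m + (m + 4) = 2 * m + 1 + 3 by ring] at this
  obtain ⟨φ, hφ, e, he⟩ := hsqrt D.hf D.hs D.hg h2 D.hfg h1
  obtain ⟨E', hE'⟩ := h1
  have h3 : f ∣ g * (g * (φ ^ 2 - δ * (C c1 * w))) := by
    refine ⟨E' - e * (a ⬝ᵥ b + g * φ), ?_⟩
    linear_combination hE' - (a ⬝ᵥ b + g * φ) * he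
  have h4 : f ∣ φ ^ 2 - δ * (C c1 * w) :=
    (D.prime.dvd_or_dvd ((D.prime.dvd_or_dvd h3).resolve_left D.hfg)).resolve_left D.hfg
  obtain ⟨v, hv⟩ := h4
  obtain ⟨l, hl⟩ := hphi φ hφ (Ideal.mem_span_pair.2 ⟨C c1 * w, v, by linear_combination -hv⟩)
  refine ⟨l, e, ?_⟩
  rw [hl] at he
  linear_combination he

theorem mem_of_lam {a : Fin 3 → R3} {l : ℂ} (h : f ∣ a ⬝ᵥ b - C l * (δ * g)) :
    a ⬝ᵥ A.adjugate *ᵥ a ∈ Ideal.span {f, g} := by
  obtain ⟨e, he⟩ := h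
  obtain ⟨E, hE⟩ := D.sq a
  have h1 : f ∣ δ * g * (C c1 * (a ⬝ᵥ A.adjugate *ᵥ a) - C l ^ 2 * (δ * g)) := by
    refine ⟨e * (a ⬝ᵥ b + C l * (δ * g)) - E, ?_⟩
    linear_combination (a ⬝ᵥ b + C l * (δ * g)) * he - hE
  obtain ⟨v, hv⟩ := D.dvd_of_dg_mul h1
  have hcc : (C c1⁻¹ * C c1 : R3) = 1 := by rw [← C_mul, inv_mul_cancel₀ D.hc1, C_1]
  refine Ideal.mem_span_pair.2 ⟨C c1⁻¹ * v, C c1⁻¹ * (C l ^ 2 * δ), ?_⟩
  linear_combination (-C c1⁻¹) * hv + (a ⬝ᵥ A.adjugate *ᵥ a) * hcc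

/-- The kernel of `a ↦ a . b` modulo `f`. -/
theorem exists_r {a : Fin 3 → R3} (ha : ∀ i, (a i).IsHomogeneous m) (h : f ∣ a ⬝ᵥ b) :
    ∃ r : Fin 3 → R3, (∀ i, (r i).IsHomogeneous (m - 2)) ∧ a = A *ᵥ r := by
  have h1 : ∀ k, f ∣ (A.adjugate *ᵥ a) k := by
    intro k
    have h2 := (D.b_mul a k)
    rw [dvd_sub_right (h.mul_left _)] at h2
    exact D.dvd_of_dg_mul (D.dvd_of_C_mul D.hc1 h2)
  have h2 : ∀ k, ∃ u : R3, u.IsHomogeneous (m - 2) ∧ (A.adjugate *ᵥ a) k = f * u := by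
    intro k
    have h3 := homog_of_dvd D.hf (homog_mulVec (homog_adj D.hA) ha k) (h1 k)
    rwa [show 2 + 2 + m - 6 = m - 2 by omega] at h3
  choose u hu hu' using h2
  refine ⟨fun k => C c⁻¹ * u k, fun k => homog_Cmul _ (hu k), ?_⟩
  funext i
  have h3 := D.mul_adj a i
  have h4 : (A *ᵥ (A.adjugate *ᵥ a)) i = f * (A *ᵥ u) i := by
    rw [show A.adjugate *ᵥ a = f • u from funext fun k => hu' k, mulVec_smul]
    rfl
  have h5 : (A *ᵥ fun k => C c⁻¹ * u k) i = C c⁻¹ * (A *ᵥ u) i := by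
    rw [show (fun k => C c⁻¹ * u k) = (C c⁻¹ : R3) • u from rfl, mulVec_smul]
    rfl
  rw [h5]
  have hcc : (C c⁻¹ * C c : R3) = 1 := by rw [← C_mul, inv_mul_cancel₀ D.hc, C_1]
  refine mul_left_cancel₀ D.prime.ne_zero ?_
  linear_combination (-C c⁻¹) * h3 + C c⁻¹ * h4 - f * a i * hcc

/-- Conversely, the vectors `A r` are in the kernel. -/
theorem dvd_of_r (r : Fin 3 → R3) : f ∣ (A *ᵥ r) ⬝ᵥ b := by
  obtain ⟨k, hk⟩ := D.hb0
  have h1 := D.b_mul (A *ᵥ r) k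
  rw [D.adj_mul] at h1
  have h2 : f ∣ b k * ((A *ᵥ r) ⬝ᵥ b) := by
    have h3 : f ∣ C c1 * (δ * g * (C c * f * r k)) := ⟨C c1 * (δ * g * (C c * r k)), by ring⟩
    exact (dvd_sub_left h3).mp h1
  exact (D.prime.dvd_or_dvd h2).resolve_left hk

/-- The special vector `a⁰ = A b / f`. -/
theorem exists_a0 : ∃ a0 : Fin 3 → R3, (∀ i, (a0 i).IsHomogeneous m) ∧
    f ∣ a0 ⬝ᵥ b - C (c * c1) * (δ * g) := by
  obtain ⟨k0, hk0⟩ := D.hb0
  choose E hE using D.hbb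
  have hAadj : ∀ i k, ∑ j, A i j * A.adjugate j k = C c * f * (if i = k then 1 else 0) := by
    intro i k
    have h1 := congrFun (congrFun (mul_adjugate A) i) k
    rw [Matrix.mul_apply, D.hdet] at h1
    rw [h1, Matrix.smul_apply, Matrix.one_apply, smul_eq_mul]
  -- `(A b)_i b_k`
  have h1 : ∀ i k, (A *ᵥ b) i * b k = C c1 * (δ * g) * (C c * f * (if i = k then 1 else 0)) +
      f * ∑ j, A i j * E j k := by
    intro i k
    rw [← hAadj i k]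
    simp only [mulVec, dotProduct, Fin.sum_univ_three]
    linear_combination A i 0 * hE 0 k + A i 1 * hE 1 k + A i 2 * hE 2 k
  have h2 : ∀ i, f ∣ (A *ᵥ b) i := by
    intro i
    have h3 : f ∣ (A *ᵥ b) i * b k0 := by
      rw [h1]
      exact ⟨C c1 * (δ * g) * (C c * (if i = k0 then 1 else 0)) + ∑ j, A i j * E j k0, by ring⟩
    exact (D.prime.dvd_or_dvd h3).resolve_right hk0
  have h3 : ∀ i, ∃ u : R3, u.IsHomogeneous m ∧ (A *ᵥ b) i = f * u := by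
    intro i
    have h4 := homog_of_dvd D.hf (homog_mulVec D.hA D.hb i) (h2 i)
    rwa [show 2 + (m + 4) - 6 = m by omega] at h4
  choose a0 ha0 ha0' using h3
  refine ⟨a0, ha0, ?_⟩
  have h4 : ∀ i k, a0 i * b k = C c1 * (δ * g) * (C c * (if i = k then 1 else 0)) +
      ∑ j, A i j * E j k := by
    intro i k
    refine mul_left_cancel₀ D.prime.ne_zero ?_
    have := h1 i k
    rw [ha0'] at this
    linear_combination this
  -- symmetric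
  have hs : ∀ i j, A i j = A j i := fun i j => D.symm.apply j i
  have h5 : f ∣ (a0 ⬝ᵥ b - C (c * c1) * (δ * g)) * b k0 := by
    refine ⟨∑ k, a0 k * E k k0, ?_⟩
    have e0 := ha0' 0
    have e1 := ha0' 1
    have e2 := ha0' 2
    simp only [mulVec, dotProduct, Fin.sum_univ_three] at e0 e1 e2
    have f0 := h4 0 k0
    have f1 := h4 1 k0
    have f2 := h4 2 k0
    have hsum : (if (0 : Fin 3) = k0 then (1 : R3) else 0) * b 0 +
        (if (1 : Fin 3) = k0 then (1 : R3) else 0) * b 1 +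
        (if (2 : Fin 3) = k0 then (1 : R3) else 0) * b 2 = b k0 := by
      fin_cases k0 <;> simp
    simp only [dotProduct, Fin.sum_univ_three] at f0 f1 f2 ⊢
    rw [C_mul]
    linear_combination b 0 * f0 + b 1 * f1 + b 2 * f2 + E 0 k0 * e0 + E 1 k0 * e1 + E 2 k0 * e2
      + C c1 * (δ * g) * C c * hsum
      + (b 0 * E 1 k0) * hs 0 1 + (b 0 * E 2 k0) * hs 0 2 + (b 1 * E 2 k0) * hs 1 2
      + (b 1 * E 0 k0) * hs 1 0 + (b 2 * E 0 k0) * hs 2 0 + (b 2 * E 1 k0) * hs 2 1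
  exact (D.prime.dvd_or_dvd h5).resolve_right hk0

end D1Data

end Vale.Agent.P287.H621
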