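import Vale.Agent.P287.H621.D1b
import Vale.Agent.P287.H684.Dim

/-!
The dimension of the space `Y_m`.
-/

namespace Vale.Agent.P287.H621

open MvPolynomial Vale.Agent.P287 Vale.Agent.P287.Theta Matrix Module

/-- The linear description of `Y_m`. -/
def YL (f g δ : R3) (m : ℕ) (b : Fin 3 → R3) : Submodule ℂ (Fin 3 → R3) where
  carrier := {a | (∀ i, (a i).IsHomogeneous m) ∧ ∃ l : ℂ, f ∣ a ⬝ᵥ b - C l * (δ * g)}
  zero_mem' := ⟨fun i => isHomogeneous_zero _ _ _, 0, by simp⟩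
  add_mem' := by
    rintro a a' ⟨ha, l, hl⟩ ⟨ha', l', hl'⟩
    refine ⟨fun i => (ha i).add (ha' i), l + l', ?_⟩
    have h1 : (a + a') ⬝ᵥ b - C (l + l') * (δ * g) =
        (a ⬝ᵥ b - C l * (δ * g)) + (a' ⬝ᵥ b - C l' * (δ * g)) := by
      rw [add_dotProduct, C_add]
      ring
    rw [h1]
    exact dvd_add hl hl'
  smul_mem' := by
    rintro t a ⟨ha, l, hl⟩
    refine ⟨fun i => (homogeneousSubmodule (Fin 3) ℂ m).smul_mem t (ha i), t * l, ?_⟩
    have h1 : (t • a) ⬝ᵥ b - C (t * l) * (δ * g) = C t * (a ⬝ᵥ b - C l * (δ * g)) := by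
      rw [smul_dotProduct, smul_eq_C_mul, C_mul]
      ring
    rw [h1]
    exact hl.mul_left _

/-- the map `(t, r) ↦ t a⁰ + A r` -/
noncomputable def mapG (A : Matrix (Fin 3) (Fin 3) R3) (a0 : Fin 3 → R3) (k : ℕ) :
    (ℂ × (Fin 3 → homogeneousSubmodule (Fin 3) ℂ k)) →ₗ[ℂ] (Fin 3 → R3) where
  toFun p := p.1 • a0 + A *ᵥ (fun i => (p.2 i : R3))
  map_add' := by
    intro p q
    have h1 : (fun i => (((p + q).2 i : homogeneousSubmodule (Fin 3) ℂ k) : R3)) =
        (fun i => (p.2 i : R3)) + fun i => (q.2 i : R3) := rfl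
    rw [h1, mulVec_add, Prod.fst_add, add_smul]
    abel
  map_smul' := by
    intro t p
    have h1 : (fun i => (((t • p).2 i : homogeneousSubmodule (Fin 3) ℂ k) : R3)) =
        t • (fun i => (p.2 i : R3)) := rfl
    rw [h1, mulVec_smul, RingHom.id_apply, smul_add, Prod.smul_fst, smul_assoc]

lemma mapG_apply (A : Matrix (Fin 3) (Fin 3) R3) (a0 : Fin 3 → R3) (k : ℕ)
    (p : ℂ × (Fin 3 → homogeneousSubmodule (Fin 3) ℂ k)) :
    mapG A a0 k p = p.1 • a0 + A *ᵥ (fun i => (p.2 i : R3)) := rfl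

namespace D1Data

variable {f g δ : R3} {m : ℕ} {A : Matrix (Fin 3) (Fin 3) R3} {b : Fin 3 → R3} {c c1 : ℂ}
variable (D : D1Data f g δ m A b c c1)
include D

theorem mem_YL
    (hphi : ∀ φ : R3, φ.IsHomogeneous 3 → φ ^ 2 ∈ Ideal.span {δ, f} → ∃ l : ℂ, φ = C l * δ)
    (a : Fin 3 → R3) : a ∈ YL f g δ m b ↔
      (∀ i, (a i).IsHomogeneous m) ∧ a ⬝ᵥ A.adjugate *ᵥ a ∈ Ideal.span {f, g} :=
  ⟨fun h => ⟨h.1, D.mem_of_lam h.2.choose_spec⟩, fun h => ⟨h.1, D.exists_lam hphi h.1 h.2⟩⟩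

/-- the map `(t, r) ↦ t a⁰ + A r` is injective with image `Y_m` -/
theorem finrank_YL (hm : 2 ≤ m) :
    finrank ℂ (YL f g δ m b) = 1 + 3 * finrank ℂ (homogeneousSubmodule (Fin 3) ℂ (m - 2)) := by
  obtain ⟨a0, ha0, hl0⟩ := D.exists_a0
  have hcc : c * c1 ≠ 0 := mul_ne_zero D.hc D.hc1
  have hinj : Function.Injective (mapG A a0 (m - 2)) := by
    rw [← LinearMap.ker_eq_bot, LinearMap.ker_eq_bot']
    rintro ⟨t, r⟩ h
    rw [mapG_apply] at h
    have h1 := congrArg (fun v => v ⬝ᵥ b) h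
    simp only [add_dotProduct, smul_dotProduct, zero_dotProduct, smul_eq_C_mul] at h1
    have ht : t = 0 := by
      by_contra ht
      have h2 : f ∣ C t * (C (c * c1) * (δ * g)) := by
        have h3 := D.dvd_of_r (fun i => (r i : R3))
        obtain ⟨e, he⟩ := hl0
        obtain ⟨e', he'⟩ := h3
        refine ⟨-(C t * e) - e', ?_⟩
        linear_combination h1 - C t * he - he'
      exact D.not_dvd_dg (D.dvd_of_C_mul hcc (D.dvd_of_C_mul ht h2))
    subst ht
    have h2 : A *ᵥ (fun i => (r i : R3)) = 0 := by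
      rw [← h, zero_smul, zero_add]
    have h3 := D.eq_zero_of_mulVec h2
    have h4 : r = 0 := by
      funext i
      exact Subtype.ext (congrFun h3 i)
    rw [h4]
    rfl
  have hrange : LinearMap.range (mapG A a0 (m - 2)) = YL f g δ m b := by
    apply le_antisymm
    · rintro _ ⟨⟨t, r⟩, rfl⟩
      rw [mapG_apply]
      refine ⟨fun i => ?_, t * (c * c1), ?_⟩
      · refine IsHomogeneous.add ?_ ?_
        · exact (homogeneousSubmodule (Fin 3) ℂ m).smul_mem t (ha0 i)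
        · have h1 := homog_mulVec D.hA (fun i => (r i).2) i
          rwa [show 2 + (m - 2) = m by omega] at h1
      · have h3 := D.dvd_of_r (fun i => (r i : R3))
        have h4 : (t • a0 + A *ᵥ fun i => (r i : R3)) ⬝ᵥ b - C (t * (c * c1)) * (δ * g) =
            C t * (a0 ⬝ᵥ b - C (c * c1) * (δ * g)) + (A *ᵥ fun i => (r i : R3)) ⬝ᵥ b := by
          rw [add_dotProduct, smul_dotProduct, smul_eq_C_mul, C_mul (a := t)]
          ring
        rw [h4]
        exact dvd_add (hl0.mul_left _) h3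
    · rintro a ⟨ha, l, hl⟩
      have h1 : f ∣ (a - (l / (c * c1)) • a0) ⬝ᵥ b := by
        have h2 : (a - (l / (c * c1)) • a0) ⬝ᵥ b = (a ⬝ᵥ b - C l * (δ * g)) -
            C (l / (c * c1)) * (a0 ⬝ᵥ b - C (c * c1) * (δ * g)) := by
          have h3 : (C l : R3) = C (l / (c * c1)) * C (c * c1) := by
            rw [← C_mul, div_mul_cancel₀ _ hcc]
          rw [sub_dotProduct, smul_dotProduct, smul_eq_C_mul, h3]
          ring
        rw [h2]
        exact dvd_sub hl (hl0.mul_left _)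
      obtain ⟨r, hr, hr'⟩ := D.exists_r (fun i => (ha i).sub
        ((homogeneousSubmodule (Fin 3) ℂ m).smul_mem (l / (c * c1)) (ha0 i))) h1
      refine ⟨(l / (c * c1), fun i => ⟨r i, hr i⟩), ?_⟩
      rw [mapG_apply]
      change (l / (c * c1)) • a0 + A *ᵥ r = a
      rw [← hr']
      exact add_sub_cancel ((l / (c * c1)) • a0) a
  rw [← hrange, LinearMap.finrank_range_of_inj hinj, Module.finrank_prod, Module.finrank_self,
    Module.finrank_pi_fintype, Fin.sum_univ_three]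
  ring

end D1Data

end Vale.Agent.P287.H621
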