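import Vale.Agent.P287.H621.E1

/-!
The dimension of the space `X_{r-1}`.
-/

namespace Vale.Agent.P287.H621

open MvPolynomial Vale.Agent.P287 Vale.Agent.P287.Theta Matrix Module Vale.Agent.P287.H684
open Vale.Agent.P287.H908 (w0)

/-- forms of degree `k` divisible by `f` -/
noncomputable def multW (f : R3) (k : ℕ) : Submodule ℂ R3 :=
  homogeneousSubmodule (Fin 3) ℂ k ⊓ (Ideal.span {f}).restrictScalars ℂ

lemma mem_multW {f c : R3} {k : ℕ} : c ∈ multW f k ↔ c.IsHomogeneous k ∧ f ∣ c := by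
  rw [multW, Submodule.mem_inf, Submodule.restrictScalars_mem, Ideal.mem_span_singleton]
  rfl

instance (f : R3) (k : ℕ) : Module.Finite ℂ (multW f k) :=
  Submodule.finiteDimensional_of_le (inf_le_left)

/-- multiplication by the adjugate -/
noncomputable def adjL (M : Matrix (Fin 4) (Fin 4) R3) : (Fin 4 → R3) →ₗ[ℂ] (Fin 4 → R3) :=
  (Matrix.mulVecLin M.adjugate).restrictScalars ℂ

lemma adjL_apply (M : Matrix (Fin 4) (Fin 4) R3) (v : Fin 4 → R3) :
    adjL M v = M.adjugate *ᵥ v := rfl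

/-- vectors of forms -/
noncomputable def homV (r : ℕ) : Submodule ℂ (Fin 4 → R3) :=
  Submodule.pi Set.univ fun i => homogeneousSubmodule (Fin 3) ℂ (r - 1 + w0 i)

lemma mem_homV {r : ℕ} {v : Fin 4 → R3} :
    v ∈ homV r ↔ ∀ i, (v i).IsHomogeneous (r - 1 + w0 i) := by
  rw [homV, Submodule.mem_pi]
  exact ⟨fun h i => h i (Set.mem_univ _), fun h i _ => h i⟩

instance (r : ℕ) : Module.Finite ℂ (homV r) := by
  let e : homV r →ₗ[ℂ] (∀ i, homogeneousSubmodule (Fin 3) ℂ (r - 1 + w0 i)) :=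
    LinearMap.pi fun i => LinearMap.codRestrict _ (LinearMap.proj i ∘ₗ (homV r).subtype)
      (by intro v; exact mem_homV.1 v.2 i)
  refine Module.Finite.of_injective e ?_
  intro v w h
  apply Subtype.ext
  funext i
  exact congrArg Subtype.val (congrFun h i)

lemma hk3 (r : ℕ) : 2 * r + 3 ≤ 2 * (r + 3) := by omega

lemma parityE {r : ℕ} (hr : 1 ≤ r) : Even ((r - 1).choose 2 + 3 * r.choose 2) ↔ Odd r := by
  obtain ⟨l, rfl⟩ := Nat.exists_eq_add_of_le hr
  have h1 : (1 + l).choose 2 = l.choose 2 + l := by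
    rw [add_comm, Nat.choose_succ_succ' l 1, Nat.choose_one_right, add_comm]
  rw [show 1 + l - 1 = l by omega, h1]
  have h2 : l.choose 2 + 3 * (l.choose 2 + l) = 2 * (2 * l.choose 2 + l) + l := by ring
  rw [h2, Nat.even_add, Nat.odd_add]
  simp

namespace E1Data

variable {M : Matrix (Fin 4) (Fin 4) R3} {g : R3} {r : ℕ} (D : E1Data M g r)
include D

theorem curvePair : CurvePair M.det (M.adjugate 0 0 * g) (2 * r + 3) := by
  refine ⟨D.hf, D.prime, D.hs, ?_, D.not_dvd_dg⟩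
  have := D.hδ.mul D.hg
  rwa [show 3 + 2 * r = 2 * r + 3 by ring] at this

/-- the space `X_{r-1}` -/
noncomputable def Xr : Submodule ℂ (Fin 4 → R3) :=
  homV r ⊓ (D.curvePair.J (r + 3) (hk3 r)).comap (LinearMap.proj 0 ∘ₗ adjL M)

lemma hom_adj {v : Fin 4 → R3} (hv : ∀ i, (v i).IsHomogeneous (r - 1 + w0 i)) (i : Fin 4) :
    ((M.adjugate *ᵥ v) i).IsHomogeneous (r + 4 - w0 i) := by
  refine IsHomogeneous.sum _ _ _ fun j _ => ?_
  have h1 := (D.hadj i j).mul (hv j)
  have := w0_le j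
  have := w0_le i
  have := D.hr
  rwa [show 5 - w0 i - w0 j + (r - 1 + w0 j) = r + 4 - w0 i by omega] at h1

lemma mem_Xr {v : Fin 4 → R3} : v ∈ D.Xr ↔ (∀ i, (v i).IsHomogeneous (r - 1 + w0 i)) ∧
    v ⬝ᵥ M.adjugate *ᵥ v ∈ Ideal.span {M.det, g} := by
  rw [D.mem_iff v, Xr, Submodule.mem_inf, mem_homV, Submodule.mem_comap]
  constructor
  · rintro ⟨h1, _, h2⟩
    exact ⟨h1, h2⟩
  · rintro ⟨h1, h2⟩
    refine ⟨h1, ?_, h2⟩
    exact D.hom_adj h1 0

instance : Module.Finite ℂ D.Xr := Submodule.finiteDimensional_of_le (inf_le_left)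

/-- The map from `X_{r-1}` to the sections modulo `f`. -/
noncomputable def toSec : D.Xr →ₗ[ℂ] (R3 ⧸ Ideal.span {M.det}) :=
  (modf M.det ∘ₗ (LinearMap.proj 0 ∘ₗ adjL M)).domRestrict D.Xr

lemma toSec_apply (v : D.Xr) : D.toSec v = modf M.det ((M.adjugate *ᵥ (v : Fin 4 → R3)) 0) := rfl

lemma range_toSec : LinearMap.range D.toSec = (D.curvePair.J (r + 3) (hk3 r)).map (modf M.det) := by
  apply le_antisymm
  · rintro _ ⟨v, rfl⟩
    exact ⟨_, v.2.2, rfl⟩
  · rintro _ ⟨b, hb, rfl⟩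
    obtain ⟨v, hv, hvb⟩ := D.exists_lift hb.1 hb.2
    refine ⟨⟨v, mem_homV.2 hv, ?_⟩, ?_⟩
    · change (M.adjugate *ᵥ v) 0 ∈ D.curvePair.J (r + 3) (hk3 r)
      rw [hvb]
      exact hb
    · rw [toSec_apply]
      exact congrArg _ hvb

/-- The kernel is the product of the spaces of multiples of `f`. -/
noncomputable def kerMap : LinearMap.ker D.toSec →ₗ[ℂ] (∀ i, multW M.det (r + 4 - w0 i)) :=
  LinearMap.pi fun i => LinearMap.codRestrict _
    (LinearMap.proj i ∘ₗ adjL M ∘ₗ D.Xr.subtype ∘ₗ (LinearMap.ker D.toSec).subtype) (by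
      intro v
      rw [mem_multW]
      refine ⟨D.hom_adj (D.mem_Xr.1 v.1.2).1 i, ?_⟩
      have h1 : M.det ∣ (M.adjugate *ᵥ ((v : D.Xr) : Fin 4 → R3)) 0 := by
        rw [← modf_eq_zero, ← D.toSec_apply]
        exact v.2
      exact (D.ker_iff _).1 h1 i)

lemma kerMap_apply (v : LinearMap.ker D.toSec) (i : Fin 4) :
    (D.kerMap v i : R3) = (M.adjugate *ᵥ ((v : D.Xr) : Fin 4 → R3)) i := rfl

lemma kerMap_bijective : Function.Bijective D.kerMap := by
  constructor
  · intro v w h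
    apply Subtype.ext
    apply Subtype.ext
    rw [← sub_eq_zero]
    refine D.adj_inj ?_
    rw [mulVec_sub, sub_eq_zero]
    funext i
    exact congrArg Subtype.val (congrFun h i)
  · intro z
    obtain ⟨v, hv, hvz⟩ := D.exists_of_dvd (z := fun i => (z i : R3))
      (fun i => (mem_multW.1 (z i).2).1) (fun i => (mem_multW.1 (z i).2).2)
    have h0 : M.det ∣ (M.adjugate *ᵥ v) 0 := by
      rw [hvz]
      exact (mem_multW.1 (z 0).2).2
    have h1 : v ∈ D.Xr := by
      rw [D.mem_Xr]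
      refine ⟨hv, ?_⟩
      rw [D.mem_iff, pow_two]
      exact Ideal.mul_mem_right _ _ (Ideal.mem_of_dvd _ h0 (Ideal.subset_span (by simp)))
    refine ⟨⟨⟨v, h1⟩, ?_⟩, ?_⟩
    · rw [LinearMap.mem_ker, toSec_apply, modf_eq_zero]
      exact h0
    · funext i
      apply Subtype.ext
      rw [kerMap_apply]
      exact congrFun hvz i

/-- **(DE4)** The dimension of `X_{r-1}`. -/
theorem finrank_Xr : finrank ℂ D.Xr = finrank ℂ ((D.curvePair.J (r + 3) (hk3 r)).map (modf M.det)) +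
    ((r - 1).choose 2 + 3 * r.choose 2) := by
  have h1 := LinearMap.finrank_range_add_finrank_ker D.toSec
  rw [D.range_toSec, (LinearEquiv.ofBijective _ D.kerMap_bijective).finrank_eq,
    Module.finrank_pi_fintype] at h1
  rw [← h1, Fin.sum_univ_four]
  have h2 : ∀ i, finrank ℂ (multW M.det (r + 4 - w0 i)) = (r + 4 - w0 i - 4).choose 2 := fun i =>
    finrank_mult D.hf D.prime.ne_zero _ fun c => mem_multW
  rw [h2, h2, h2, h2]
  have e0 : r + 4 - w0 0 - 4 = r - 1 := by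
    have : w0 0 = 1 := rfl
    omega
  have e1 : r + 4 - w0 1 - 4 = r := by
    have : w0 1 = 0 := rfl
    omega
  have e2 : r + 4 - w0 2 - 4 = r := by
    have : w0 2 = 0 := rfl
    omega
  have e3 : r + 4 - w0 3 - 4 = r := by
    have : w0 3 = 0 := rfl
    omega
  rw [e0, e1, e2, e3]
  ring

end E1Data

end Vale.Agent.P287.H621
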