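import Vale.Agent.P287.H621.E2
import Vale.Agent.P287.H621.D1
import Vale.Agent.P287.EvenN.Spec

/-!
The block [DE]: the parity of the dimension of `X_{r-1}`, in the affine form of
`EvenN/Spec.lean`.
-/

namespace Vale.Agent.P287.H621

open Polynomial Vale.Agent.P287 Vale.Agent.P287.Theta Matrix Module Vale.Agent.P287.H684
open Vale.Agent.P287.H908 (w0)

section chart

variable {T S : Matrix (Fin 3) (Fin 3) ℂ}

/-- Membership in the ideal `(f, g)` can be tested in the chart, degree `n` of `g`. -/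
theorem mem_of_chN (hTS : T * S = 1) {f g : R3} {n d : ℕ} (hf : f.IsHomogeneous 6)
    (hg : g.IsHomogeneous n) (hn : 1 ≤ n) {f' g' : ℂ[X][X]} {u v : ℂ}
    (hf' : f' = C (C u) * ch T f) (hg' : g' = C (C v) * ch T g) (K : EvenN.CurveN n g' f')
    {N : R3} (hN : N.IsHomogeneous d) (h5 : 5 ≤ d) (hd : n ≤ d)
    (h : ch T N ∈ Ideal.span {f', g'}) : N ∈ Ideal.span {f, g} := by
  obtain ⟨U, V, hUV⟩ := Ideal.mem_span_pair.1 h
  have hdiv := modByMonic_add_div U g'
  set r := U %ₘ g' with hr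
  set V' := V + f' * (U /ₘ g') with hV'
  have hTWg : TW n g' := Wd_iff_TW.1 K.wd
  have h1 : TW d (ch T N) := TW_iff_TD.2 (TD_ch hN)
  have hsum : ch T N = f' * r + g' * V' := by
    rw [hV', ← hUV]
    linear_combination (-f') * hdiv
  have h2 : (f' * r) %ₘ g' = (ch T N) %ₘ g' := by
    rw [hsum, add_modByMonic, (modByMonic_eq_zero_iff_dvd K.monic).mpr (dvd_mul_right _ _),
      add_zero]
  have hcoeff : ∀ j, n ≤ j → r.coeff j = 0 := by
    intro j hj
    refine coeff_eq_zero_of_degree_lt ?_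
    refine (degree_modByMonic_lt U K.monic).trans_le ?_
    rw [degree_eq_natDegree K.monic.ne_zero, K.deg]
    exact_mod_cast hj
  have hf'TD : TD 6 f' := Wd_iff_TD.1 K.inf.1
  have h2' : TW d ((ch T N) %ₘ g') := TW.modByMonic K.monic K.deg hTWg h1
  -- the degree of `r`
  have h4 : TD (d - 6) r ∧ (d < 6 → r = 0) := by
    by_cases h6 : 6 ≤ d
    · refine ⟨?_, fun h => by omega⟩
      have h3 : Odd.Wd (d - 6 + 6) ((f' * r) %ₘ g') := by
        rw [Nat.sub_add_cancel h6, h2]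
        exact Wd_iff_TW.2 h2'
      exact Wd_iff_TD.1 (K.inf.2 _ r hcoeff h3)
    · have hd5 : d = 5 := by omega
      have h3 : Odd.Wd (0 + 6) ((f' * r) %ₘ g') := by
        rw [h2]
        exact Wd_iff_TW.2 (h2'.mono (by omega))
      have h4 := Wd_iff_TD.1 (K.inf.2 _ r hcoeff h3)
      obtain ⟨c, hc⟩ := TD_zero_iff h4
      have h5 : Odd.Wd (0 + 6) ((f' * (C X * r)) %ₘ g') := by
        have e1 : (f' * (C X * r)) %ₘ g' = (C X * ((f' * r) %ₘ g')) %ₘ g' := by
          have e2 := modByMonic_add_div (f' * r) g'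
          have e3 : f' * (C X * r) = C X * ((f' * r) %ₘ g') + g' * (C X * ((f' * r) /ₘ g')) := by
            linear_combination (-(C X)) * e2
          rw [e3, add_modByMonic, (modByMonic_eq_zero_iff_dvd K.monic).mpr (dvd_mul_right _ _),
            add_zero]
        rw [e1, h2]
        refine Wd_iff_TW.2 (TW.modByMonic K.monic K.deg hTWg ?_)
        have e4 := (TW_CX (k := ℂ)).mul h2'
        rwa [hd5] at e4
      have h6 := K.inf.2 0 (C X * r) (by
        intro j hj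
        rw [coeff_C_mul, hcoeff j hj, mul_zero]) h5
      have h7 := h6 1 0 (by norm_num)
      have hc0 : c = 0 := by
        rw [hc, ← C_mul, coeff_C_zero, mul_comm, coeff_C_mul, coeff_X_one, mul_one] at h7
        exact h7
      have hr0 : r = 0 := by rw [hc, hc0, C_0, C_0]
      exact ⟨by rw [hr0]; exact TD_zero _, fun _ => hr0⟩
  have h5 : TD (n + (d - n)) (g' * V') := by
    have e1 : g' * V' = ch T N - f' * r := by rw [hsum]; ring
    rw [e1, show n + (d - n) = d by omega]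
    refine (TD_ch hN).sub ?_
    by_cases h6 : 6 ≤ d
    · have := hf'TD.mul h4.1
      rwa [show 6 + (d - 6) = d by omega] at this
    · rw [h4.2 (by omega), mul_zero]
      exact TD_zero _
  have h7 : TD (d - n) V' :=
    TD_of_mul (Wd_iff_TD.1 K.wd) (top_ne_of_monic K.monic K.deg) h5
  obtain ⟨P, hP, hPp, hP0⟩ : ∃ P : R3, P.IsHomogeneous (d - 6) ∧ ch T P = C (C u) * r ∧
      (d < 6 → P = 0) := by
    by_cases h6 : 6 ≤ d
    · obtain ⟨P, hP, hPp⟩ := ch_surj hTS (h4.1.smul u)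
      exact ⟨P, hP, hPp, fun h => by omega⟩
    · refine ⟨0, MvPolynomial.isHomogeneous_zero _ _ _, ?_, fun _ => rfl⟩
      rw [h4.2 (by omega), mul_zero, map_zero]
  obtain ⟨Q, hQ, hQq⟩ := ch_surj hTS (h7.smul v)
  have h8 : N = P * f + Q * g := by
    refine ch_inj hTS hN ?_ ?_
    · refine MvPolynomial.IsHomogeneous.add ?_ ?_
      · by_cases h6 : 6 ≤ d
        · have := hP.mul hf
          rwa [show d - 6 + 6 = d by omega] at this
        · rw [hP0 (by omega), zero_mul]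
          exact MvPolynomial.isHomogeneous_zero _ _ _
      · have := hQ.mul hg
        rwa [show d - n + n = d by omega] at this
    · rw [map_add, map_mul, map_mul, hPp, hQq, hsum, hf', hg']
      ring
  exact Ideal.mem_span_pair.2 ⟨P, Q, h8.symm⟩

lemma adj_map4 (T : Matrix (Fin 3) (Fin 3) ℂ) (M : Matrix (Fin 4) (Fin 4) R3) (v : Fin 4 → R3)
    (i : Fin 4) :
    ((M.map (ch T)).adjugate *ᵥ fun j => ch T (v j)) i = ch T ((M.adjugate *ᵥ v) i) := by
  have h1 : (M.map (ch T)).adjugate = M.adjugate.map (ch T) :=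
    (AlgHom.map_adjugate (ch T) M).symm
  rw [h1]
  simp only [mulVec, dotProduct, Fin.sum_univ_four, map_add, map_mul, Matrix.map_apply]

/-- the map from vectors of forms to vectors of affine polynomials -/
noncomputable def toA (T : Matrix (Fin 3) (Fin 3) ℂ) (Y : Submodule ℂ (Fin 4 → R3)) :
    Y →ₗ[ℂ] (Fin 4 → ℂ[X][X]) :=
  LinearMap.pi fun i => (ch T).toLinearMap ∘ₗ LinearMap.proj i ∘ₗ Y.subtype

lemma toA_apply (Y : Submodule ℂ (Fin 4 → R3)) (v : Y) :
    toA T Y v = fun i => ch T ((v : Fin 4 → R3) i) := rfl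

end chart

namespace E1Data

variable {M : Matrix (Fin 4) (Fin 4) R3} {g : R3} {r : ℕ} (D : E1Data M g r)
variable {T S : Matrix (Fin 3) (Fin 3) ℂ}
include D

theorem range_toA (hTS : T * S = 1) {f' g' : ℂ[X][X]} {v : ℂ} (hv : v ≠ 0)
    (hf' : f' = ch T M.det) (hg' : g' = C (C v) * ch T g) (K : EvenN.CurveN (2 * r) g' f')
    (hQ : EvenN.Quad4 g' f' (M.map (ch T))) {J : Ideal ℂ[X][X]}
    (hJ : ∀ a ∈ J, ∀ b ∈ J, a * b ∈ Ideal.span {f', g'})
    (hJ' : ∀ c, c ^ 2 ∈ Ideal.span {f', g'} → c ∈ J) :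
    LinearMap.range (toA T D.Xr) = EvenN.Yd4 (2 * r) (r - 1) (EvenN.modX4 (M.map (ch T)) J) := by
  have hr := D.hr
  have hf1 : f' = C (C (1 : ℂ)) * ch T M.det := by rw [hf', C_1, C_1, one_mul]
  have hmod : ∀ x : R3, x ^ 2 ∈ Ideal.span {M.det, g} → ch T x ∈ J := by
    intro x hx
    apply hJ'
    rw [← map_pow]
    exact ch_mem one_ne_zero hv hf1 hg' hx
  have hfI : ch T M.det ∈ Ideal.span {f', g'} :=
    ch_mem one_ne_zero hv hf1 hg' (Ideal.subset_span (by simp))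
  apply le_antisymm
  · rintro _ ⟨p, rfl⟩
    obtain ⟨hp, hp2⟩ := D.mem_Xr.1 p.2
    refine ⟨fun i => ?_, fun i _ => ?_⟩
    · rw [toA_apply, adj_map4]
      apply hmod
      obtain ⟨e, he⟩ := D.rank_one (p : Fin 4 → R3) i i
      have h3 : (M.adjugate *ᵥ (p : Fin 4 → R3)) i ^ 2 = M.det * e + M.adjugate i i *
          ((p : Fin 4 → R3) ⬝ᵥ M.adjugate *ᵥ (p : Fin 4 → R3)) := by linear_combination he
      rw [h3]
      exact Ideal.add_mem _ (Ideal.mul_mem_right _ _ (Ideal.subset_span (by simp)))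
        (Ideal.mul_mem_left _ _ hp2)
    · change ch T ((p : Fin 4 → R3) i) ∈ Odd.En (2 * r) (r - 1 + EvenN.wt0 i)
      have h1 : EvenN.wt0 i ≤ 1 := w0_le i
      exact wd_En (by omega) (TD_ch (hp i))
  · rintro w ⟨hw, hwE⟩
    have h1 : ∀ i : Fin 4, TD (r - 1 + w0 i) (w i) := fun i =>
      Wd_iff_TD.1 (hwE i (Set.mem_univ _)).1
    choose a ha haw using fun j => ch_surj hTS (h1 j)
    have hav : w = fun j => ch T (a j) := by
      funext j
      exact (haw j).symm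
    have hx : ∀ i, ch T ((M.adjugate *ᵥ a) i) ∈ J := by
      intro i
      have h2 := hw i
      rwa [hav, adj_map4] at h2
    have hN : a ⬝ᵥ M.adjugate *ᵥ a ∈ Ideal.span {M.det, g} := by
      have h2 : (a ⬝ᵥ M.adjugate *ᵥ a).IsHomogeneous (2 * r + 3) := by
        refine MvPolynomial.IsHomogeneous.sum _ _ _ fun i _ => ?_
        have h3 := (ha i).mul (D.hom_adj ha i)
        have h4 := w0_le i
        rwa [show r - 1 + w0 i + (r + 4 - w0 i) = 2 * r + 3 by omega] at h3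
      refine mem_of_chN hTS D.hf D.hg (by omega) hf1 hg' K h2 (by omega) (by omega) ?_
      have h3 : ∀ i k, ch T (M.adjugate i k) * ch T (a ⬝ᵥ M.adjugate *ᵥ a) ∈
          Ideal.span {f', g'} := by
        intro i k
        obtain ⟨e, he⟩ := D.rank_one a i k
        have h4 : M.adjugate i k * (a ⬝ᵥ M.adjugate *ᵥ a) =
            (M.adjugate *ᵥ a) i * (M.adjugate *ᵥ a) k - M.det * e := by linear_combination -he
        rw [← map_mul, h4, map_sub, map_mul, map_mul]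
        exact Ideal.sub_mem _ (hJ _ (hx i) _ (hx k)) (Ideal.mul_mem_right _ _ hfI)
      set z := ch T (a ⬝ᵥ M.adjugate *ᵥ a) with hz
      set K₁ : Ideal ℂ[X][X] :=
        Submodule.comap (LinearMap.mulRight ℂ[X][X] z) (Ideal.span {f', g'}) with hK₁
      have h5 : (⊤ : Ideal ℂ[X][X]) ≤ K₁ := by
        rw [← hQ.rank]
        refine sup_le ?_ ?_
        · rw [Ideal.span_le]
          rintro _ ⟨⟨i, k⟩, rfl⟩
          change (M.map (ch T)).adjugate i k * z ∈ Ideal.span {f', g'}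
          have h6 : (M.map (ch T)).adjugate = M.adjugate.map (ch T) :=
            (AlgHom.map_adjugate (ch T) M).symm
          rw [h6]
          exact h3 i k
        · intro x hx
          exact Ideal.mul_mem_right z _ hx
      have h6 : (1 : ℂ[X][X]) * z ∈ Ideal.span {f', g'} := h5 (Submodule.mem_top)
      rwa [one_mul] at h6
    exact ⟨⟨a, D.mem_Xr.2 ⟨ha, hN⟩⟩, hav.symm⟩

/-- **[DE]** The dimension of `X_{r-1}`. -/
theorem finrank_Yd4 (hTS : T * S = 1) {f' g' : ℂ[X][X]} {v : ℂ} (hv : v ≠ 0)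
    (hf' : f' = ch T M.det) (hg' : g' = C (C v) * ch T g) (K : EvenN.CurveN (2 * r) g' f')
    (hQ : EvenN.Quad4 g' f' (M.map (ch T))) {J : Ideal ℂ[X][X]}
    (hJ : ∀ a ∈ J, ∀ b ∈ J, a * b ∈ Ideal.span {f', g'})
    (hJ' : ∀ c, c ^ 2 ∈ Ideal.span {f', g'} → c ∈ J) :
    finrank ℂ (EvenN.Yd4 (2 * r) (r - 1) (EvenN.modX4 (M.map (ch T)) J)) =
      finrank ℂ ((D.curvePair.J (r + 3) (hk3 r)).map (modf M.det)) +
        ((r - 1).choose 2 + 3 * r.choose 2) := by
  rw [← D.range_toA hTS hv hf' hg' K hQ hJ hJ', LinearMap.finrank_range_of_inj, D.finrank_Xr]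
  intro x y h
  apply Subtype.ext
  funext i
  exact ch_inj (T := T) hTS ((D.mem_Xr.1 x.2).1 i) ((D.mem_Xr.1 y.2).1 i) (congrFun h i)

/-- One section modulo `f`. -/
lemma finrank_one (h : ∃ b₀ : R3, b₀.IsHomogeneous (r + 3) ∧
      b₀ ^ 2 ∈ Ideal.span {M.adjugate 0 0 * g, M.det} ∧ ¬ M.det ∣ b₀ ∧
      ∀ b : R3, b.IsHomogeneous (r + 3) → b ^ 2 ∈ Ideal.span {M.adjugate 0 0 * g, M.det} →
        ∃ c : ℂ, M.det ∣ b - MvPolynomial.C c * b₀) :
    finrank ℂ ((D.curvePair.J (r + 3) (hk3 r)).map (modf M.det)) = 1 := by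
  obtain ⟨b₀, h1, h2, h3, h4⟩ := h
  have h5 : (D.curvePair.J (r + 3) (hk3 r)).map (modf M.det) = ℂ ∙ (modf M.det b₀) := by
    apply le_antisymm
    · rintro _ ⟨b, hb, rfl⟩
      obtain ⟨c, hc⟩ := h4 b hb.1 hb.2
      rw [Submodule.mem_span_singleton]
      refine ⟨c, ?_⟩
      have h6 := modf_eq_zero.2 hc
      rw [map_sub, sub_eq_zero] at h6
      rw [h6, ← map_smul, MvPolynomial.smul_eq_C_mul]
    · rw [Submodule.span_singleton_le_iff_mem]
      exact ⟨b₀, ⟨h1, h2⟩, rfl⟩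
  rw [h5]
  exact finrank_span_singleton (fun h => h3 (modf_eq_zero.1 h))

/-- **[DE]** The parity of the dimension of `X_{r-1}` when there is one section. -/
theorem even_Yd4_iff (hTS : T * S = 1) {f' g' : ℂ[X][X]} {v : ℂ} (hv : v ≠ 0)
    (hf' : f' = ch T M.det) (hg' : g' = C (C v) * ch T g) (K : EvenN.CurveN (2 * r) g' f')
    (hQ : EvenN.Quad4 g' f' (M.map (ch T))) {J : Ideal ℂ[X][X]}
    (hJ : ∀ a ∈ J, ∀ b ∈ J, a * b ∈ Ideal.span {f', g'})
    (hJ' : ∀ c, c ^ 2 ∈ Ideal.span {f', g'} → c ∈ J)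
    (h : ∃ b₀ : R3, b₀.IsHomogeneous (r + 3) ∧
      b₀ ^ 2 ∈ Ideal.span {M.adjugate 0 0 * g, M.det} ∧ ¬ M.det ∣ b₀ ∧
      ∀ b : R3, b.IsHomogeneous (r + 3) → b ^ 2 ∈ Ideal.span {M.adjugate 0 0 * g, M.det} →
        ∃ c : ℂ, M.det ∣ b - MvPolynomial.C c * b₀) :
    Even (finrank ℂ (EvenN.Yd4 (2 * r) (r - 1) (EvenN.modX4 (M.map (ch T)) J))) ↔ Even r := by
  rw [D.finrank_Yd4 hTS hv hf' hg' K hQ hJ hJ', D.finrank_one h, Nat.even_add, parityE D.hr]
  simp

end E1Data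

end Vale.Agent.P287.H621
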