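import Vale.Agent.P287.Theta.Core
import Vale.Agent.P287.Theta.GoodCoords

/-!
Homogeneous normality of a smooth plane sextic; homogeneous coefficients in memberships.
-/

namespace Vale.Agent.P287.H621

open Polynomial Vale.Agent.P287 Vale.Agent.P287.Theta

/-- Reduction of a representation `p ≡ h a` to the right degree (no condition on `d`). -/
lemma reduce0 {f h : ℂ[X][X]} {d : ℕ} {z : Fin 6 → ℂ} {c6 : ℂ} (H : AtInfinity f h d z c6)
    {k : ℕ} {p : ℂ[X][X]} (hp : TD (d + k) p) (N : ℕ) :
    ∀ a, TD N a → f ∣ p - h * a → ∃ a', TD k a' ∧ f ∣ p - h * a' := by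
  induction N with
  | zero => exact fun a ha hfa => ⟨a, ha.mono (by omega), hfa⟩
  | succ N ih =>
    intro a ha hfa
    by_cases hN : N + 1 ≤ k
    · exact ⟨a, ha.mono hN, hfa⟩
    by_cases h5 : d + (N + 1) ≤ 5
    · have h0 : p - h * a = 0 := by
        refine H.eq_zero_of_dvd (TD.mono ?_ h5) hfa
        exact (hp.mono (by omega)).sub (H.hh.mul ha)
      have h1 : p = h * a := by linear_combination h0
      refine ⟨a, ?_, hfa⟩
      refine TD_of_mul H.hh ?_ (h1 ▸ hp)
      intro h2
      have h3 := H.toph 0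
      rw [h2, eval_zero] at h3
      exact h3 rfl
    obtain ⟨b, hb⟩ := hfa
    have h1 : TD (d + (N + 1)) (f * b) := by
      rw [← hb]
      exact (hp.mono (by omega)).sub (H.hh.mul ha)
    have h2 : TD (d + N - 5) b := by
      refine TD_of_mul H.hf H.top_ne ?_
      rwa [show 6 + (d + N - 5) = d + (N + 1) by omega]
    have h3 := top_mul H.hf h2
    rw [show 6 + (d + N - 5) = d + (N + 1) by omega, ← hb, top_sub, top_mul H.hh ha,
      top_eq_zero hp (by omega), zero_sub] at h3
    obtain ⟨w, hw⟩ := H.lower ha (by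
      intro k
      have h4 := congrArg (eval (z k)) h3
      rw [eval_neg, eval_mul, eval_mul, H.eval_topf, zero_mul, neg_eq_zero] at h4
      exact (mul_eq_zero.mp h4).resolve_left (H.toph k))
    refine ih _ hw ?_
    have : p - h * (a - f * w) = f * (b + h * w) := by
      linear_combination hb
    rw [this]
    exact Dvd.intro _ rfl

/-- **Homogeneous normality** of a smooth plane sextic. -/
theorem hsqrt {f a s c : R3} {ds k : ℕ} (hf : f.IsHomogeneous 6) (hs : SmoothTernary f)
    (hss : s.IsHomogeneous ds) (ha : a.IsHomogeneous (ds + k)) (hfs : ¬ f ∣ s)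
    (h : f ∣ a ^ 2 - s ^ 2 * c) : ∃ d : R3, d.IsHomogeneous k ∧ f ∣ a - s * d := by
  have hfi := irreducible_of_smooth hf (by norm_num) hs
  obtain ⟨T, S, hTS, z, c6, H⟩ := exists_coords hf hfi hss hfs
  have hf' := sb_homog T hf
  have hfi' := sb_irreducible hTS hfi
  have hsm' := sb_smooth hTS hs
  have hfp : Prime (dh (sb T f)) := prime_dh hf' (by norm_num) hfi'
  have h1 : dh (sb T f) ∣ dh (sb T a) ^ 2 - dh (sb T s) ^ 2 * dh (sb T c) := by
    have h2 := dh_dvd (map_dvd (sb T) h)
    rwa [map_sub, map_mul, map_pow, map_pow, map_sub, map_mul, map_pow, map_pow] at h2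
  have hfs' : ¬ dh (sb T f) ∣ dh (sb T s) := fun h2 =>
    hfs ((sb_dvd_iff hTS).mp (dvd_of_dh_dvd' hf' (by norm_num) hfi' (sb_homog T hss) h2))
  obtain ⟨d, hd⟩ := sqrt_dvd (dh (sb T f)) hfp (smooth_dh hf' hsm') _ _ _ hfs' h1
  obtain ⟨d', hd', hd'2⟩ := reduce0 H (TD_dh (sb_homog T ha)) _ d (TD_natDegree d) hd
  obtain ⟨D, hD, hDd⟩ := exists_homog hd'
  refine ⟨sb S D, sb_homog S hD, ?_⟩
  have h3 : sb T f ∣ sb T a - sb T s * D := by
    refine dvd_of_dh_dvd' hf' (by norm_num) hfi'
      ((sb_homog T ha).sub ((sb_homog T hss).mul hD)) ?_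
    rw [map_sub, map_mul, hDd]
    exact hd'2
  have h4 := map_dvd (sb S) h3
  rwa [map_sub, map_mul, sb_inv hTS, sb_inv hTS, sb_inv hTS] at h4

section components

open MvPolynomial

/-- The components of a product with a form. -/
lemma comp_mul_left {p q : R3} {d : ℕ} (hp : p.IsHomogeneous d) (n : ℕ) :
    ∃ q' : R3, q'.IsHomogeneous (n - d) ∧ homogeneousComponent n (p * q) = p * q' := by
  by_cases hdn : d ≤ n
  · refine ⟨homogeneousComponent (n - d) q, homogeneousComponent_isHomogeneous _ _, ?_⟩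
    conv_lhs => rw [← sum_homogeneousComponent q]
    rw [Finset.mul_sum, map_sum]
    have h1 : ∀ i, homogeneousComponent n (p * homogeneousComponent i q) =
        if i = n - d then p * homogeneousComponent (n - d) q else 0 := by
      intro i
      rw [homogeneousComponent_of_mem (hp.mul (homogeneousComponent_isHomogeneous i q))]
      by_cases h : i = n - d
      · subst h
        rw [if_pos rfl, if_pos (by omega)]
      · rw [if_neg h, if_neg (by omega)]
    rw [Finset.sum_congr rfl fun i _ => h1 i]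
    by_cases h : n - d ∈ Finset.range (q.totalDegree + 1)
    · rw [Finset.sum_ite_eq' _ (n - d), if_pos h]
    · rw [Finset.sum_ite_eq' _ (n - d), if_neg h, homogeneousComponent_eq_zero (n - d) q
        (by rw [Finset.mem_range] at h; omega), mul_zero]
  · refine ⟨0, isHomogeneous_zero _ _ _, ?_⟩
    conv_lhs => rw [← sum_homogeneousComponent q]
    rw [Finset.mul_sum, map_sum, mul_zero]
    refine Finset.sum_eq_zero fun i _ => ?_
    rw [homogeneousComponent_of_mem (hp.mul (homogeneousComponent_isHomogeneous i q)),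
      if_neg (by omega)]

/-- Homogeneous quotients. -/
lemma homog_of_dvd {f N : R3} {d n : ℕ} (hf : f.IsHomogeneous d) (hN : N.IsHomogeneous n)
    (h : f ∣ N) : ∃ u : R3, u.IsHomogeneous (n - d) ∧ N = f * u := by
  obtain ⟨q, hq⟩ := h
  obtain ⟨u, hu, hu'⟩ := comp_mul_left (q := q) hf n
  refine ⟨u, hu, ?_⟩
  rw [← hu', ← hq, homogeneousComponent_eq_self hN]

/-- Homogeneous coefficients in a membership. -/
lemma homog_of_mem {f g N : R3} {d e n : ℕ} (hf : f.IsHomogeneous d) (hg : g.IsHomogeneous e)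
    (hN : N.IsHomogeneous n) (h : N ∈ Ideal.span {f, g}) :
    ∃ u w : R3, u.IsHomogeneous (n - d) ∧ w.IsHomogeneous (n - e) ∧ N = f * u + g * w := by
  obtain ⟨p, q, hpq⟩ := Ideal.mem_span_pair.1 h
  obtain ⟨u, hu, hu'⟩ := comp_mul_left (q := p) hf n
  obtain ⟨w, hw, hw'⟩ := comp_mul_left (q := q) hg n
  refine ⟨u, w, hu, hw, ?_⟩
  rw [← hu', ← hw', ← map_add, mul_comm f p, mul_comm g q, hpq, homogeneousComponent_eq_self hN]

/-- A form of degree smaller than the degree of `f` divisible by `f` vanishes. -/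
lemma eq_zero_of_dvd {f N : R3} {d n : ℕ} (hf : f.IsHomogeneous d) (hN : N.IsHomogeneous n)
    (hn : n < d) (h : f ∣ N) : N = 0 := by
  obtain ⟨q, rfl⟩ := h
  by_contra h0
  have hf0 : f ≠ 0 := left_ne_zero_of_mul h0
  have hq0 : q ≠ 0 := right_ne_zero_of_mul h0
  have h1 := totalDegree_mul_of_isDomain hf0 hq0
  rw [hN.totalDegree h0, hf.totalDegree hf0] at h1
  omega

end components

end Vale.Agent.P287.H621
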